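import Vale.Agent.Lib.P120.SelfSim

open MeasureTheory Filter Set Metric Module
open scoped Topology ENNReal NNReal RealInnerProductSpace

namespace Vale.Agent.P120

variable {d n : ℕ} {μ : Measure (E d)}

/-- `μ` has big-piece self-similarity: there are `η, M > 0` such that for every ball `B(x,r)`,
`x ∈ supp μ`, `0 < r ≤ diam (supp μ)`, and every ball `B(y,s) ⊆ B(x,r)`, `y ∈ supp μ`, `s ≤ r`,
there are a set `A ⊆ supp μ ∩ B(x,r)` with `μ(A) ≥ η r^n` and a map `φ : A → supp μ ∩ B(y,s)`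
with `(s/r) |a - b| ≤ M |φ(a) - φ(b)|` for all `a, b ∈ A`. -/
def BigPieceSelfSimilar (n : ℕ) (μ : Measure (E d)) : Prop :=
  ∃ η : ℝ, 0 < η ∧ ∃ M : ℝ, 0 < M ∧ ∀ x ∈ μ.support, ∀ r : ℝ, 0 < r → LeDiam r μ →
    ∀ y ∈ μ.support, ∀ s : ℝ, 0 < s → s ≤ r → ball y s ⊆ ball x r →
      ∃ A : Set (E d), A ⊆ μ.support ∩ ball x r ∧ ENNReal.ofReal (η * r ^ n) ≤ μ A ∧
        ∃ φ : E d → E d, MapsTo φ A (μ.support ∩ ball y s) ∧
          ∀ a ∈ A, ∀ b ∈ A, s / r * ‖a - b‖ ≤ M * ‖φ a - φ b‖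

lemma Homogeneous.bigPieceSelfSimilar (h : Homogeneous n μ) : BigPieceSelfSimilar n μ := by
  obtain ⟨η, hη, M, hM, h⟩ := h
  refine ⟨η, hη, M, hM, ?_⟩
  intro x hx r hr hrD y hy s hs hsr _
  obtain ⟨A, hA, hAμ, hAφ⟩ := h x hx r hr hrD
  exact ⟨A, hA, hAμ, hAφ y hy s hs ((ENNReal.ofReal_le_ofReal hsr).trans hrD)⟩

/-- Projection to the plane of a flat ball. -/
lemma approx_map {A : Set (E d)} {y : E d} {s r θ M : ℝ} {V : Submodule ℝ (E d)} {φ : E d → E d}
    (hs : 0 < s) (hr : 0 < r) (hM : 0 < M) (hV : finrank ℝ V = n)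
    (hVf : Flat μ V θ y s) (hφ : MapsTo φ A (μ.support ∩ ball y s))
    (hφM : ∀ a ∈ A, ∀ b ∈ A, s / r * ‖a - b‖ ≤ M * ‖φ a - φ b‖) :
    ∃ F : E d → E n, (∀ a ∈ A, ‖F a‖ ≤ 1 + θ) ∧
      ∀ a ∈ A, ∀ b ∈ A, (M * r)⁻¹ * ‖a - b‖ - 2 * θ ≤ ‖F a - F b‖ := by
  have hv : ∀ a : E d, ∃ v : V, a ∈ A → ‖φ a - y - v‖ ≤ θ * s := by
    intro a
    by_cases ha : a ∈ A
    · obtain ⟨v, hvV, hv⟩ := hVf (φ a) (hφ ha).1 (hφ ha).2
      exact ⟨⟨v, hvV⟩, fun _ => hv⟩
    · exact ⟨0, fun h => absurd h ha⟩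
  choose v hv using hv
  let b := (stdOrthonormalBasis ℝ V).reindex (finCongr hV)
  refine ⟨fun a => s⁻¹ • b.repr (v a), ?_, ?_⟩
  · intro a ha
    rw [norm_smul, LinearIsometryEquiv.norm_map, Real.norm_eq_abs, abs_of_pos (by positivity)]
    have h1 : ‖(v a : V)‖ ≤ (1 + θ) * s := by
      have h2 : ((v a : V) : E d) = (φ a - y) - (φ a - y - v a) := by abel
      have h3 : ‖((v a : V) : E d)‖ ≤ s + θ * s := by
        rw [h2]
        refine (norm_sub_le _ _).trans (add_le_add ?_ (hv a ha))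
        have := (hφ ha).2
        rw [mem_ball, dist_eq_norm] at this
        exact this.le
      have h4 : ‖(v a : V)‖ = ‖((v a : V) : E d)‖ := rfl
      rw [h4]; linarith
    calc s⁻¹ * ‖v a‖ ≤ s⁻¹ * ((1 + θ) * s) := by gcongr
      _ = 1 + θ := by field_simp
  · intro a ha a' ha'
    rw [← smul_sub, ← map_sub, norm_smul, LinearIsometryEquiv.norm_map, Real.norm_eq_abs,
      abs_of_pos (by positivity)]
    have h1 := hφM a ha a' ha'
    have h2 : ‖φ a - φ a'‖ ≤ ‖v a - v a'‖ + 2 * (θ * s) := by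
      have h3 : φ a - φ a' = ((v a - v a' : V) : E d) +
          ((φ a - y - v a) - (φ a' - y - v a')) := by
        rw [Submodule.coe_sub]; abel
      rw [h3]
      refine (norm_add_le _ _).trans ?_
      have h4 : ‖(v a - v a' : V)‖ = ‖((v a - v a' : V) : E d)‖ := rfl
      rw [h4]
      have h5 := norm_sub_le (φ a - y - v a) (φ a' - y - v a')
      have h6 := hv a ha
      have h7 := hv a' ha'
      linarith
    have h3 : s / r * ‖a - a'‖ ≤ M * (‖v a - v a'‖ + 2 * (θ * s)) :=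
      h1.trans (by gcongr)
    have h4 : (M * r)⁻¹ * ‖a - a'‖ = (M * s)⁻¹ * (s / r * ‖a - a'‖) := by
      field_simp
    have h5 : s⁻¹ * ‖v a - v a'‖ = (M * s)⁻¹ * (M * (‖v a - v a'‖ + 2 * (θ * s))) - 2 * θ := by
      field_simp
      ring
    rw [h4, h5]
    have h6 : (M * s)⁻¹ * (s / r * ‖a - a'‖) ≤ (M * s)⁻¹ * (M * (‖v a - v a'‖ + 2 * (θ * s))) := by
      gcongr
    linarith

/-- A set with an approximately expanding map to the unit ball of `ℝ^n` is close to a Lipschitz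
image of a ball of `ℝ^n`. -/
lemma near_lipschitz_image {A : Set (E d)} {r θ M : ℝ} (hr : 0 < r) (hM : 0 < M) (hθ : 0 < θ)
    (hθ1 : θ ≤ 1) {F : E d → E n} (hF1 : ∀ a ∈ A, ‖F a‖ ≤ 1 + θ)
    (hF2 : ∀ a ∈ A, ∀ b ∈ A, (M * r)⁻¹ * ‖a - b‖ - 2 * θ ≤ ‖F a - F b‖) :
    ∃ g : E n → E d, LipschitzWith (lipschitzExtensionConstant (E d) * ⟨8 * M, by positivity⟩) g ∧
      ∀ a ∈ A, ∃ u ∈ closedBall (0 : E n) (r / 2), ‖a - g u‖ ≤ 10 * M * r * θ := by
  set ε : ℝ := 4 * M * r * θ with hε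
  have hε0 : 0 < ε := by positivity
  obtain ⟨N, hNA, hdisj, hcov⟩ := Vitali.exists_disjoint_subfamily_covering_enlargement_closedBall
      A (fun x => x) (fun _ => ε / 2) (ε / 2) (fun x _ => le_rfl) 5 (by norm_num)
  let H : E d → E n := fun a => (r / 4) • F a
  have hsep : ∀ a ∈ N, ∀ b ∈ N, a ≠ b → ε ≤ ‖a - b‖ := by
    intro a ha b hb hab
    have h1 := hdisj ha hb hab
    simp only [Function.onFun] at h1
    rw [disjoint_closedBall_closedBall_iff (by positivity) (by positivity), dist_eq_norm] at h1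
    linarith
  have hH2 : ∀ a ∈ N, ∀ b ∈ N, ‖a - b‖ ≤ 8 * M * ‖H a - H b‖ := by
    intro a ha b hb
    by_cases hab : a = b
    · rw [hab, sub_self, sub_self, norm_zero, norm_zero, mul_zero]
    have h1 := hF2 a (hNA ha) b (hNA hb)
    have h2 := hsep a ha b hb hab
    have h3 : 2 * θ ≤ (M * r)⁻¹ * (‖a - b‖ / 2) := by
      calc 2 * θ = (M * r)⁻¹ * (ε / 2) := by rw [hε]; field_simp; ring
        _ ≤ (M * r)⁻¹ * (‖a - b‖ / 2) := by gcongr
    have h4 : (M * r)⁻¹ * (‖a - b‖ / 2) ≤ ‖F a - F b‖ := by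
      have : (M * r)⁻¹ * ‖a - b‖ = (M * r)⁻¹ * (‖a - b‖ / 2) + (M * r)⁻¹ * (‖a - b‖ / 2) := by ring
      linarith
    simp only [H]
    rw [← smul_sub, norm_smul, Real.norm_eq_abs, abs_of_pos (by positivity)]
    calc ‖a - b‖ = 2 * (M * r) * ((M * r)⁻¹ * (‖a - b‖ / 2)) := by field_simp
      _ ≤ 2 * (M * r) * ‖F a - F b‖ := by gcongr
      _ = 8 * M * (r / 4 * ‖F a - F b‖) := by ring
  have hinj : InjOn H N := by
    intro a ha b hb hab
    have h1 := hH2 a ha b hb
    rw [hab, sub_self, norm_zero, mul_zero] at h1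
    exact sub_eq_zero.mp (norm_le_zero_iff.mp h1)
  have : Nonempty (E d) := ⟨0⟩
  let ψ : E n → E d := Function.invFunOn H N
  have hψ : ∀ a ∈ N, ψ (H a) = a := fun a ha => hinj.leftInvOn_invFunOn ha
  have hlip : LipschitzOnWith ⟨8 * M, by positivity⟩ ψ (H '' N) := by
    refine LipschitzOnWith.of_dist_le_mul ?_
    rintro _ ⟨a, ha, rfl⟩ _ ⟨b, hb, rfl⟩
    rw [hψ a ha, hψ b hb, dist_eq_norm, dist_eq_norm]
    exact hH2 a ha b hb
  obtain ⟨g, hg, hgψ⟩ := hlip.extend_finite_dimension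
  refine ⟨g, hg, ?_⟩
  intro a ha
  obtain ⟨b, hb, hab⟩ := hcov a ha
  refine ⟨H b, ?_, ?_⟩
  · rw [mem_closedBall, dist_zero_right]
    simp only [H]
    rw [norm_smul, Real.norm_eq_abs, abs_of_pos (by positivity)]
    have := hF1 b (hNA hb)
    nlinarith
  · rw [← hgψ ⟨b, hb, rfl⟩, hψ b hb, ← dist_eq_norm]
    have h1 : a ∈ closedBall b (5 * (ε / 2)) := hab (mem_closedBall_self (by positivity))
    rw [mem_closedBall] at h1
    refine h1.trans (le_of_eq ?_)
    rw [hε]; ring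

/-- An AD-regular measure with bounded Riesz transform and big-piece self-similarity is
uniformly rectifiable. -/
theorem ur_of_bigPieceSelfSimilar [IsLocallyFiniteMeasure μ] (hn : 1 ≤ n) (hnd : n ≤ d)
    (hAD : ADRegular n μ) (hR : RieszBounded n μ) (hH : BigPieceSelfSimilar n μ) :
    UniformlyRectifiable n μ := by
  by_cases hS : μ.support.Nontrivial
  swap
  · refine ⟨1, one_pos, 1, ?_⟩
    intro x hx r hr hrD
    exfalso
    have h1 : ediam μ.support = 0 := by
      by_contra h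
      exact hS (Metric.ediam_pos_iff.mp (pos_iff_ne_zero.mpr h))
    rw [LeDiam, h1, nonpos_iff_eq_zero, ENNReal.ofReal_eq_zero] at hrD
    linarith
  have hnt : Nontrivial (E d) := by
    obtain ⟨a, -, b, -, hab⟩ := hS
    exact ⟨a, b, hab⟩
  obtain ⟨η, hη, M, hM, hH⟩ := hH
  set K : ℝ≥0 := ⟨8 * M, by positivity⟩ with hK
  set L : ℝ≥0 := lipschitzExtensionConstant (E d) * K with hL
  refine ⟨η, hη, L, ?_⟩
  intro x hx r hr hrD
  have hstep : ∀ j : ℕ, ∃ A : Set (E d), A ⊆ μ.support ∩ ball x r ∧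
      ENNReal.ofReal (η * r ^ n) ≤ μ A ∧ ∃ g : E n → E d, LipschitzWith L g ∧
        ∀ a ∈ A, ∃ u ∈ closedBall (0 : E n) (r / 2), ‖a - g u‖ ≤
          10 * M * r * (1 / ((j : ℝ) + 1)) := by
    intro j
    have hθ : (0 : ℝ) < 1 / ((j : ℝ) + 1) := by positivity
    have hθ1 : 1 / ((j : ℝ) + 1) ≤ 1 := by
      rw [div_le_one (by positivity)]
      have : (0 : ℝ) ≤ j := by positivity
      linarith
    obtain ⟨y, hy, s, hs, hsD, hsub, V, hV, hVf, -⟩ :=
      exists_flat_ball hn hnd hAD hR hS _ hθ x hx r hr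
    have hsr : s ≤ r := by
      have h1 := diam_mono hsub isBounded_ball
      rw [diam_ball_eq y hs.le, diam_ball_eq x hr.le] at h1
      linarith
    obtain ⟨A, hA, hAμ, φ, hφ, hφM⟩ := hH x hx r hr hrD y hy s hs hsr hsub
    obtain ⟨F, hF1, hF2⟩ := approx_map hs hr hM hV hVf hφ hφM
    obtain ⟨g, hg, hgA⟩ := near_lipschitz_image hr hM hθ hθ1 hF1 hF2
    exact ⟨A, hA, hAμ, g, hg, hgA⟩
  choose A hA hAμ g hg hgA using hstep
  have hAne : ∀ j, (A j).Nonempty := by
    intro j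
    rw [nonempty_iff_ne_empty]
    intro he
    have h1 := hAμ j
    rw [he, measure_empty, nonpos_iff_eq_zero, ENNReal.ofReal_eq_zero] at h1
    have : 0 < η * r ^ n := by positivity
    linarith
  have herr : ∀ j : ℕ, 10 * M * r * (1 / ((j : ℝ) + 1)) ≤ 10 * M * r := by
    intro j
    have hθ1 : 1 / ((j : ℝ) + 1) ≤ 1 := by
      rw [div_le_one (by positivity)]
      have : (0 : ℝ) ≤ j := by positivity
      linarith
    have : 0 < 10 * M * r := by positivity
    nlinarith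
  let 𝒰 : Ultrafilter ℕ := hyperfilter ℕ
  have hθ0 : Tendsto (fun j : ℕ => 1 / ((j : ℝ) + 1)) 𝒰 (𝓝 0) :=
    (tendsto_one_div_add_atTop_nhds_zero_nat (𝕜 := ℝ)).mono_left Nat.hyperfilter_le_atTop
  have hlim : ∀ u : E n, ∃ w : E d, Tendsto (fun j => g j u) 𝒰 (𝓝 w) := by
    intro u
    set R : ℝ := L * (‖u‖ + r / 2) + 10 * M * r + r with hR'
    have hc : IsCompact (closedBall x R) := isCompact_closedBall _ _
    have hmem : ∀ᶠ j in (𝒰 : Filter ℕ), g j u ∈ closedBall x R := by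
      refine Eventually.of_forall fun j => ?_
      obtain ⟨a, ha⟩ := hAne j
      obtain ⟨u', hu', hau'⟩ := hgA j a ha
      rw [mem_closedBall, dist_eq_norm]
      have h1 : g j u - x = (g j u - g j u') - (a - g j u') + (a - x) := by abel
      have h2 : ‖g j u - g j u'‖ ≤ L * (‖u‖ + r / 2) := by
        have h3 := (hg j).dist_le_mul u u'
        rw [dist_eq_norm, dist_eq_norm] at h3
        refine h3.trans ?_
        rw [mem_closedBall, dist_zero_right] at hu'
        have := norm_sub_le u u'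
        gcongr
        linarith
      have h3 : ‖a - x‖ ≤ r := by
        have := (hA j ha).2
        rw [mem_ball, dist_eq_norm] at this
        exact this.le
      rw [h1]
      refine (norm_add_le _ _).trans (add_le_add ((norm_sub_le _ _).trans (add_le_add h2 ?_)) h3)
      exact hau'.trans (herr j)
    obtain ⟨w, -, hw⟩ := hc.ultrafilter_le_nhds (𝒰.map (fun j => g j u)) (by
      rw [le_principal_iff]
      exact hmem)
    exact ⟨w, hw⟩
  choose G hG using hlim
  have hGlip : LipschitzWith L G := by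
    refine LipschitzWith.of_dist_le_mul fun u v => ?_
    exact le_of_tendsto ((hG u).dist (hG v)) (Eventually.of_forall fun j => (hg j).dist_le_mul u v)
  set P : Set (E d) := G '' closedBall (0 : E n) (r / 2) with hP
  have hPc : IsCompact P := (isCompact_closedBall _ _).image hGlip.continuous
  have hclaim : ∀ ρ : ℝ, 0 < ρ → ∃ j, A j ⊆ cthickening ρ P := by
    intro ρ hρ
    by_contra hcon
    push Not at hcon
    have h1 : ∀ j, ∃ a ∈ A j, a ∉ cthickening ρ P := fun j => not_subset.mp (hcon j)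
    choose a haA haP using h1
    have h2 : ∀ j, ∃ u ∈ closedBall (0 : E n) (r / 2), ‖a j - g j u‖ ≤
          10 * M * r * (1 / ((j : ℝ) + 1)) := fun j => hgA j (a j) (haA j)
    choose u hu hau using h2
    obtain ⟨w, hw, huw⟩ := (isCompact_closedBall (0 : E n) (r / 2)).ultrafilter_le_nhds
      (𝒰.map u) (by
        rw [le_principal_iff]
        have hu' : ∀ᶠ j in (𝒰 : Filter ℕ), u j ∈ closedBall (0 : E n) (r / 2) :=
          Eventually.of_forall hu
        exact hu')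
    have huw' : Tendsto u 𝒰 (𝓝 w) := huw
    have h3 : Tendsto (fun j : ℕ => 10 * M * r * (1 / ((j : ℝ) + 1)) + L * dist (u j) w +
        dist (g j w) (G w)) 𝒰 (𝓝 (10 * M * r * 0 + L * dist w w + dist (G w) (G w))) := by
      refine ((hθ0.const_mul _).add ?_).add ((hG w).dist tendsto_const_nhds)
      exact (huw'.dist tendsto_const_nhds).const_mul _
    rw [dist_self, dist_self, mul_zero, mul_zero, add_zero, add_zero] at h3
    have h4 : ∀ᶠ j : ℕ in (𝒰 : Filter ℕ), 10 * M * r * (1 / ((j : ℝ) + 1)) + L * dist (u j) w +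
        dist (g j w) (G w) < ρ := h3.eventually (gt_mem_nhds hρ)
    obtain ⟨j, hj⟩ := h4.exists
    refine haP j ?_
    refine mem_cthickening_of_dist_le (a j) (G w) ρ P ⟨w, hw, rfl⟩ ?_
    have h5 : dist (a j) (G w) ≤ dist (a j) (g j (u j)) + dist (g j (u j)) (g j w) +
        dist (g j w) (G w) := dist_triangle4 _ _ _ _
    have h6 := (hg j).dist_le_mul (u j) w
    have h7 := hau j
    rw [← dist_eq_norm] at h7
    linarith
  refine ⟨G, hGlip.lipschitzOnWith, ?_⟩
  have hball : IsFiniteMeasureOnCompacts (μ.restrict (ball x r)) := inferInstance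
  have hmeas : ENNReal.ofReal (η * r ^ n) ≤ (μ.restrict (ball x r)) P := by
    have h1 := tendsto_measure_cthickening_of_isCompact (μ := μ.restrict (ball x r)) hPc
    have h2 : Tendsto (fun ρ => (μ.restrict (ball x r)) (cthickening ρ P)) (𝓝[>] 0)
        (𝓝 ((μ.restrict (ball x r)) P)) := h1.mono_left nhdsWithin_le_nhds
    refine ge_of_tendsto h2 ?_
    filter_upwards [self_mem_nhdsWithin] with ρ hρ
    obtain ⟨j, hj⟩ := hclaim ρ hρ
    refine (hAμ j).trans ?_
    have h3 : A j ⊆ ball x r := fun a ha => (hA j ha).2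
    rw [← Measure.restrict_eq_self μ h3]
    exact measure_mono hj
  refine hmeas.trans ?_
  rw [Measure.restrict_apply hPc.measurableSet, inter_comm]
  refine measure_mono (inter_subset_inter_right _ (image_mono ?_))
  exact closedBall_subset_ball (by linarith)

end Vale.Agent.P120
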