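import Vale.Agent.Lib.P120.LowDim

open MeasureTheory Filter Set Metric Module
open scoped Topology ENNReal NNReal RealInnerProductSpace

namespace Vale.Agent.P120

variable {d n : ℕ} {μ : Measure (E d)} {C c D : ℝ}

/-- Bilateral flatness of the support in a ball. -/
def BFlat (μ : Measure (E d)) (V : Submodule ℝ (E d)) (θ : ℝ) (x0 : E d) (r0 : ℝ) : Prop :=
  Flat μ V θ x0 r0 ∧ ∀ z ∈ V, ‖z‖ < r0 → ∃ y ∈ μ.support, ‖y - (x0 + z)‖ ≤ θ * r0

/-- Existence of balls which are bilaterally flat in dimension `n`. -/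
theorem exists_bflat (hU : UB n μ C) (hL : LB n μ c D) (hn : 1 ≤ n) (hnd : n ≤ d) {C4 : ℝ}
    (hgood : ∀ xs ∈ μ.support, ∀ rs : ℝ, 0 < rs → ∀ δ : ℝ, 0 < δ → 
      ∃ x0 ∈ μ.support, ∃ r0 : ℝ, 0 < r0 ∧ r0 ≤ D ∧ ball x0 r0 ⊆ ball xs rs ∧
        Good n μ C4 δ x0 r0) (θ : ℝ) (hθ : 0 < θ) (xs : E d) (hxs : xs ∈ μ.support)
    (rs : ℝ) (hrs : 0 < rs) :
    ∃ x0 ∈ μ.support, ∃ r0 : ℝ, 0 < r0 ∧ r0 ≤ D ∧ ball x0 r0 ⊆ ball xs rs ∧
      ∃ V : Submodule ℝ (E d), finrank ℝ V = n ∧ BFlat μ V θ x0 r0 := by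
  obtain ⟨θs, hθs0, hθs1, hlow⟩ := not_flat_low hU hL hn
  set θm : ℝ := min θ 1 with hθm
  have hθm0 : 0 < θm := lt_min hθ one_pos
  have hθm1 : θm ≤ 1 := min_le_right _ _
  have hθmθ : θm ≤ θ := min_le_left _ _
  set c0 : ℝ := θm / 4 with hc0
  have hc00 : 0 < c0 := by positivity
  obtain ⟨lam, hlam0, hlam1, hstep⟩ := reduce_step hU hL (C4 := C4) hc00 hθs0 hθs1
  set θ2 : ℝ := min (θm / 4) (θs * lam * c0 / 12) with hθ2
  have hθ20 : 0 < θ2 := lt_min (by positivity) (by positivity)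
  obtain ⟨x0, hx0, r0, hr0, hr0D, hsub, hg, V, hVk, hV⟩ :=
    exists_flat_of_good hU hL hgood (d - n) n (by omega) le_rfl θ2 hθ20
      (min 1 1 * lam * c0) (by rw [min_self]; positivity) xs hxs rs hrs
  have hprod : θs * lam * c0 / 12 ≤ θs := by
    have h1 : θs * lam * c0 ≤ θs * 1 * 1 := by
      gcongr
      linarith
    linarith
  have hVn : finrank ℝ V = n := by
    refine le_antisymm hVk ?_
    by_contra hlt
    rw [not_le] at hlt
    exact hlow x0 hx0 r0 hr0 hr0D V hlt (hV.mono hr0.le ((min_le_right _ _).trans hprod))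
  have hnohole : ∀ z ∈ V, ‖z‖ ≤ r0 / 4 → ∃ y ∈ μ.support, ‖y - (x0 + z)‖ < c0 * r0 := by
    by_contra hcon
    push Not at hcon
    obtain ⟨z, hzV, hz, hfar⟩ := hcon
    obtain ⟨x1, hx1, t, ht0, htlow, hsub1, htr, hg1, V', hV'1, hV'2⟩ :=
      hstep 1 one_pos x0 hx0 r0 hr0 hr0D V hg (hV.mono hr0.le (min_le_right _ _))
        ⟨z, hzV, hz, hfar⟩
    exact hlow x1 hx1 t ht0 (htr.trans hr0D) V' (by omega) hV'2
  refine ⟨x0, hx0, r0 / 4, by positivity, by linarith,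
    (ball_subset_ball (by linarith)).trans hsub, V, hVn, ?_, ?_⟩
  · intro y hy hyb
    obtain ⟨v, hvV, hv⟩ := hV y hy (ball_subset_ball (by linarith) hyb)
    refine ⟨v, hvV, hv.trans ?_⟩
    have h1 : θ2 ≤ θm / 4 := min_le_left _ _
    calc θ2 * r0 ≤ θm / 4 * r0 := by gcongr
      _ ≤ θ / 4 * r0 := by gcongr
      _ = θ * (r0 / 4) := by ring
  · intro z hzV hz
    obtain ⟨y, hy, hyz⟩ := hnohole z hzV hz.le
    refine ⟨y, hy, hyz.le.trans ?_⟩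
    calc c0 * r0 = θm / 4 * r0 := rfl
      _ ≤ θ / 4 * r0 := by gcongr
      _ = θ * (r0 / 4) := by ring

end Vale.Agent.P120
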