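import Vale.Agent.Lib.P120.Kernel

open MeasureTheory Filter Set Metric
open scoped Topology ENNReal NNReal RealInnerProductSpace

namespace Vale.Agent.P120

variable {d n : ℕ} {μ : Measure (E d)} {C c D : ℝ}

/-- Upper regularity for all balls. -/
def UB (n : ℕ) (μ : Measure (E d)) (C : ℝ) : Prop :=
  0 < C ∧ ∀ (x : E d) (r : ℝ), 0 < r → μ (closedBall x r) ≤ ENNReal.ofReal (C * r ^ n)

/-- Lower regularity for balls of radius at most `D`. -/
def LB (n : ℕ) (μ : Measure (E d)) (c D : ℝ) : Prop :=
  0 < c ∧ 0 < D ∧ ∀ x ∈ μ.support, ∀ r : ℝ, 0 < r → r ≤ D →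
    ENNReal.ofReal (c * r ^ n) ≤ μ (ball x r)

lemma UB.ball (h : UB n μ C) (x : E d) {r : ℝ} (hr : 0 < r) :
    μ (ball x r) ≤ ENNReal.ofReal (C * r ^ n) :=
  (measure_mono ball_subset_closedBall).trans (h.2 x r hr)

lemma UB.ball_lt_top (h : UB n μ C) (x : E d) (r : ℝ) : μ (Metric.ball x r) < ∞ := by
  rcases le_or_gt r 0 with hr | hr
  · simp [ball_eq_empty.mpr hr]
  · exact (h.ball x hr).trans_lt ENNReal.ofReal_lt_top

lemma UB.closedBall_lt_top (h : UB n μ C) (x : E d) (r : ℝ) : μ (closedBall x r) < ∞ := by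
  refine (measure_mono (closedBall_subset_ball (lt_add_one r))).trans_lt (h.ball_lt_top x _)

/-- From AD-regularity to the two bounds. -/
lemma exists_bounds [IsLocallyFiniteMeasure μ] (h : ADRegular n μ)
    (hd : μ.support.Nontrivial) :
    ∃ C c D : ℝ, UB n μ C ∧ LB n μ c D ∧ LeDiam D μ := by
  obtain ⟨C, hC1, hC⟩ := h
  have hC0 : 0 < C := by linarith
  have hpos : 0 < ediam μ.support := Metric.ediam_pos_iff.mpr hd
  have hnull : μ μ.supportᶜ = 0 := Measure.measure_compl_support
  -- choose `D`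
  obtain ⟨D, hD0, hD⟩ : ∃ D : ℝ, 0 < D ∧ LeDiam D μ := by
    obtain ⟨D, hD0, hD⟩ := ENNReal.lt_iff_exists_real_btwn.mp hpos
    refine ⟨D, ?_, ?_⟩
    · exact ENNReal.ofReal_pos.mp hD.1
    · exact hD.2.le
  have hLB : LB n μ C⁻¹ D := by
    refine ⟨by positivity, hD0, fun x hx r hr hrD => ?_⟩
    exact (hC x hx r hr ((ENNReal.ofReal_le_ofReal hrD).trans hD)).1
  -- small balls
  have small : ∀ (x : E d) (r : ℝ), 0 < r → LeDiam (3 * r) μ →
      μ (closedBall x r) ≤ ENNReal.ofReal (C * 3 ^ n * r ^ n) := by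
    intro x r hr h3
    by_cases hne : (closedBall x r ∩ μ.support).Nonempty
    · obtain ⟨y, hy, hyS⟩ := hne
      have hsub : closedBall x r ⊆ ball y (3 * r) := by
        intro z hz
        rw [mem_closedBall] at hz hy
        rw [mem_ball]
        have := dist_triangle_right z y x
        linarith
      refine (measure_mono hsub).trans ?_
      refine ((hC y hyS (3 * r) (by positivity) h3).2).trans ?_
      rw [mul_pow, mul_assoc]
    · have : μ (closedBall x r) = 0 := by
        refine measure_mono_null ?_ hnull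
        intro z hz hzS
        exact hne ⟨z, hz, hzS⟩
      rw [this]; exact zero_le
  by_cases htop : ediam μ.support = ∞
  · refine ⟨C * 3 ^ n, C⁻¹, D, ⟨by positivity, fun x r hr => small x r hr ?_⟩, hLB, hD⟩
    unfold LeDiam; rw [htop]; exact le_top
  · -- bounded support
    have hbdd : Bornology.IsBounded μ.support := Metric.isBounded_iff_ediam_ne_top.mpr htop
    have hcomp : IsCompact μ.support :=
      Metric.isCompact_of_isClosed_isBounded Measure.isClosed_support hbdd
    have hfin : μ univ < ∞ := by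
      have h1 : μ univ ≤ μ μ.support + μ μ.supportᶜ := by
        rw [← union_compl_self μ.support]; exact measure_union_le _ _
      rw [hnull, add_zero] at h1
      exact h1.trans_lt hcomp.measure_lt_top
    set Δ := (ediam μ.support).toReal with hΔdef
    have hΔ : ENNReal.ofReal Δ = ediam μ.support := ENNReal.ofReal_toReal htop
    have hΔ0 : 0 < Δ := ENNReal.toReal_pos hpos.ne' htop
    set m := (μ univ).toReal with hmdef
    have hm : μ univ = ENNReal.ofReal m := (ENNReal.ofReal_toReal hfin.ne).symm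
    have hm0 : 0 ≤ m := ENNReal.toReal_nonneg
    refine ⟨C * 3 ^ n + m * (3 / Δ) ^ n, C⁻¹, D, ⟨by positivity, fun x r hr => ?_⟩, hLB, hD⟩
    by_cases hr3 : 3 * r ≤ Δ
    · refine (small x r hr ?_).trans ?_
      · unfold LeDiam; rw [← hΔ]; exact ENNReal.ofReal_le_ofReal hr3
      · apply ENNReal.ofReal_le_ofReal
        have : 0 ≤ m * (3 / Δ) ^ n * r ^ n := by positivity
        linarith only [this]
    · refine (measure_mono (subset_univ _)).trans ?_
      rw [hm]
      apply ENNReal.ofReal_le_ofReal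
      push Not at hr3
      have h1 : 1 ≤ (3 / Δ) ^ n * r ^ n := by
        rw [← mul_pow]
        apply one_le_pow₀
        rw [div_mul_eq_mul_div, one_le_div hΔ0]
        exact hr3.le
      have h2 : 0 ≤ C * 3 ^ n * r ^ n := by positivity
      have h3 : m ≤ m * ((3 / Δ) ^ n * r ^ n) := le_mul_of_one_le_right hm0 h1
      linarith only [h2, h3]

end Vale.Agent.P120
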