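import Vale.Agent.Lib.P120.Imp

/-!
Definitions for problem P120 (David-Semmes problem for Riesz transforms).
-/

open MeasureTheory

namespace Vale.Agent.P120

/-- Euclidean space `ℝ^d`. -/
abbrev E (d : ℕ) : Type := EuclideanSpace ℝ (Fin d)

/-- The support of `μ` has diameter at least `r`, i.e. `r ≤ diam (supp μ)` (the diameter being
allowed to be infinite). -/
def LeDiam {d : ℕ} (r : ℝ) (μ : Measure (E d)) : Prop :=
  ENNReal.ofReal r ≤ Metric.ediam μ.support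

/-- `μ` is `n`-Ahlfors-David regular with some constant `C ≥ 1`:
`C⁻¹ r^n ≤ μ(B(x,r)) ≤ C r^n` for all `x ∈ supp μ` and `0 < r ≤ diam (supp μ)`. -/
def ADRegular {d : ℕ} (n : ℕ) (μ : Measure (E d)) : Prop :=
  ∃ C : ℝ, 1 ≤ C ∧ ∀ x ∈ μ.support, ∀ r : ℝ, 0 < r → LeDiam r μ →
    ENNReal.ofReal (C⁻¹ * r ^ n) ≤ μ (Metric.ball x r) ∧
      μ (Metric.ball x r) ≤ ENNReal.ofReal (C * r ^ n)

/-- The `n`-dimensional Riesz kernel `K_n(z) = z / |z|^(n+1)`. -/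
noncomputable def rieszKernel {d : ℕ} (n : ℕ) (z : E d) : E d :=
  (‖z‖ ^ (n + 1))⁻¹ • z

/-- The truncated Riesz transform `R_{μ,ε} f(x) = ∫_{|x-y|>ε} K_n(x-y) f(y) dμ(y)`. -/
noncomputable def rieszTrunc {d : ℕ} (n : ℕ) (μ : Measure (E d)) (ε : ℝ) (f : E d → ℝ)
    (x : E d) : E d :=
  ∫ y in {y | ε < ‖x - y‖}, f y • rieszKernel n (x - y) ∂μ

/-- The `n`-dimensional Riesz transform is bounded on `L²(μ)`: there is a constant `C` such that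
for all real `f ∈ L²(μ)` and all `ε > 0`, the integral defining `R_{μ,ε} f` converges (almost
everywhere) and `‖R_{μ,ε} f‖_{L²(μ)} ≤ C ‖f‖_{L²(μ)}`. -/
def RieszBounded {d : ℕ} (n : ℕ) (μ : Measure (E d)) : Prop :=
  ∃ C : ℝ, ∀ f : E d → ℝ, MemLp f 2 μ → ∀ ε : ℝ, 0 < ε →
    (∀ᵐ x ∂μ, IntegrableOn (fun y => f y • rieszKernel n (x - y)) {y | ε < ‖x - y‖} μ) ∧
      eLpNorm (rieszTrunc n μ ε f) 2 μ ≤ ENNReal.ofReal C * eLpNorm f 2 μ

/-- `μ` is uniformly `n`-rectifiable: there are `θ > 0` and `M` such that for every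
`x ∈ supp μ` and `0 < r ≤ diam (supp μ)` some `M`-Lipschitz map `g : B_{ℝ^n}(0,r) → ℝ^d`
satisfies `μ(B(x,r) ∩ g(B_{ℝ^n}(0,r))) ≥ θ r^n`. -/
def UniformlyRectifiable {d : ℕ} (n : ℕ) (μ : Measure (E d)) : Prop :=
  ∃ θ : ℝ, 0 < θ ∧ ∃ M : NNReal, ∀ x ∈ μ.support, ∀ r : ℝ, 0 < r → LeDiam r μ →
    ∃ g : E n → E d, LipschitzOnWith M g (Metric.ball 0 r) ∧
      ENNReal.ofReal (θ * r ^ n) ≤ μ (Metric.ball x r ∩ g '' Metric.ball 0 r)

end Vale.Agent.P120
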