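import Vale.Agent.Lib.P120.Main

open MeasureTheory Filter Set Metric Module
open scoped Topology ENNReal NNReal RealInnerProductSpace

namespace Vale.Agent.P120

variable {d n : ℕ} {μ : Measure (E d)}

/-- A set is uniformly disconnected if for some `δ > 0` no two distinct points of the set are
joined by a `δ`-chain: a finite sequence of points of the set whose steps have length at most
`δ` times the distance of its endpoints. -/
def UniformlyDisconnected (S : Set (E d)) : Prop :=
  ∃ δ : ℝ, 0 < δ ∧ ∀ (k : ℕ) (x : ℕ → E d), (∀ i ≤ k, x i ∈ S) →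
    (∀ i < k, ‖x (i + 1) - x i‖ ≤ δ * ‖x k - x 0‖) → x k = x 0

/-- An AD-regular measure with bounded Riesz transform has no uniformly disconnected support. -/
theorem not_uniformlyDisconnected [IsLocallyFiniteMeasure μ] (hn : 1 ≤ n) (hnd : n ≤ d)
    (hAD : ADRegular n μ) (hR : RieszBounded n μ) (hS : μ.support.Nontrivial) :
    ¬ UniformlyDisconnected μ.support := by
  rintro ⟨δ0, hδ0, hchain⟩
  set δ : ℝ := min δ0 1 with hδdef
  have hδ : 0 < δ := lt_min hδ0 one_pos
  have hδ1 : δ ≤ 1 := min_le_right _ _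
  obtain ⟨xs, hxs⟩ := hS.nonempty
  obtain ⟨x0, hx0, r0, hr0, -, -, V, hV, -, hVb⟩ :=
    exists_flat_ball hn hnd hAD hR hS (δ / 16) (by positivity) xs hxs 1 one_pos
  have hVne : ∃ v ∈ V, v ≠ 0 := by
    by_contra hcon
    push Not at hcon
    have h1 : V = ⊥ := by
      rw [Submodule.eq_bot_iff]; exact hcon
    rw [h1, finrank_bot] at hV
    omega
  obtain ⟨v0, hv0V, hv0⟩ := hVne
  set v : E d := (‖v0‖)⁻¹ • v0 with hv
  have hvV : v ∈ V := V.smul_mem _ hv0V
  have hvn : ‖v‖ = 1 := by
    rw [hv, norm_smul, norm_inv, norm_norm, inv_mul_cancel₀ (norm_ne_zero_iff.mpr hv0)]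
  set m : ℕ := ⌈2 / δ⌉₊ with hm
  have hm1 : 2 / δ ≤ m := Nat.le_ceil _
  have hm0 : (0 : ℝ) < m := lt_of_lt_of_le (by positivity) hm1
  set h : ℝ := r0 / 2 / m with hh
  have hh0 : 0 < h := by positivity
  have hh1 : h ≤ δ / 4 * r0 := by
    rw [hh, div_le_iff₀ hm0]
    rw [div_le_iff₀ hδ] at hm1
    nlinarith
  have hmh : (m : ℝ) * h = r0 / 2 := by rw [hh]; field_simp
  have hpt : ∀ i : ℕ, ∃ y : E d, i ≤ m → y ∈ μ.support ∧
      ‖y - (x0 + ((i : ℝ) * h) • v)‖ ≤ δ / 16 * r0 := by
    intro i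
    by_cases hi : i ≤ m
    · have h1 : ‖((i : ℝ) * h) • v‖ < r0 := by
        rw [norm_smul, hvn, mul_one, Real.norm_eq_abs, abs_of_nonneg (by positivity)]
        have : (i : ℝ) * h ≤ m * h := by gcongr
        linarith
      obtain ⟨y, hy, hy'⟩ := hVb _ (V.smul_mem _ hvV) h1
      exact ⟨y, fun _ => ⟨hy, hy'⟩⟩
    · exact ⟨0, fun h => absurd h hi⟩
  choose y hy using hpt
  have hend : (3 / 8 : ℝ) * r0 ≤ ‖y m - y 0‖ := by
    have h1 := (hy m le_rfl).2
    have h2 := (hy 0 (Nat.zero_le _)).2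
    have h3 : ‖(r0 / 2) • v‖ = r0 / 2 := by
      rw [norm_smul, hvn, mul_one, Real.norm_eq_abs, abs_of_pos (by positivity)]
    have h4 : (r0 / 2) • v = (y m - y 0) - (y m - (x0 + ((m : ℝ) * h) • v)) +
        (y 0 - (x0 + (((0 : ℕ) : ℝ) * h) • v)) := by
      rw [hmh]
      simp only [Nat.cast_zero, zero_mul, zero_smul, add_zero]
      abel
    have h5 : ‖(r0 / 2) • v‖ ≤ ‖y m - y 0‖ + δ / 16 * r0 + δ / 16 * r0 := by
      rw [h4]
      refine (norm_add_le _ _).trans (add_le_add ((norm_sub_le _ _).trans ?_) h2)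
      gcongr
    rw [h3] at h5
    nlinarith
  have hstep : ∀ i < m, ‖y (i + 1) - y i‖ ≤ δ0 * ‖y m - y 0‖ := by
    intro i hi
    have h1 := (hy (i + 1) hi).2
    have h2 := (hy i hi.le).2
    have h3 : y (i + 1) - y i = (y (i + 1) - (x0 + (((i + 1 : ℕ) : ℝ) * h) • v)) -
        (y i - (x0 + ((i : ℝ) * h) • v)) + h • v := by
      push_cast
      rw [add_mul, add_smul, one_mul]
      abel
    have h4 : ‖y (i + 1) - y i‖ ≤ δ / 16 * r0 + δ / 16 * r0 + h := by
      rw [h3]
      refine (norm_add_le _ _).trans (add_le_add ((norm_sub_le _ _).trans (add_le_add h1 h2)) ?_)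
      rw [norm_smul, hvn, mul_one, Real.norm_eq_abs, abs_of_pos hh0]
    calc ‖y (i + 1) - y i‖ ≤ δ * (3 / 8 * r0) := by linarith
      _ ≤ δ0 * ‖y m - y 0‖ := by
          have : δ ≤ δ0 := min_le_left _ _
          gcongr
  have h1 := hchain m y (fun i hi => (hy i hi).1) hstep
  rw [h1, sub_self, norm_zero] at hend
  linarith

/-- Boundedness of the Riesz transform passes to restrictions. -/
theorem RieszBounded.restrict (hR : RieszBounded n μ) {F : Set (E d)} (hF : MeasurableSet F) :
    RieszBounded n (μ.restrict F) := by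
  obtain ⟨C, hC⟩ := hR
  refine ⟨C, ?_⟩
  intro f hf ε hε
  have hf' : MemLp (F.indicator f) 2 μ := (memLp_indicator_iff_restrict hF).mpr hf
  obtain ⟨h1, h2⟩ := hC _ hf' ε hε
  have hind : ∀ x : E d, (fun y => F.indicator f y • rieszKernel n (x - y)) =
      F.indicator (fun y => f y • rieszKernel n (x - y)) := by
    intro x
    funext y
    by_cases hy : y ∈ F
    · simp only [indicator_of_mem hy]
    · simp only [indicator_of_notMem hy, zero_smul]
  have hrestr : ∀ x : E d, (μ.restrict F).restrict {y | ε < ‖x - y‖} =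
      (μ.restrict {y | ε < ‖x - y‖}).restrict F := by
    intro x
    refine Measure.restrict_comm ?_
    exact measurableSet_lt measurable_const (by fun_prop)
  have htr : rieszTrunc n (μ.restrict F) ε f = rieszTrunc n μ ε (F.indicator f) := by
    funext x
    rw [rieszTrunc, rieszTrunc, hrestr x, ← integral_indicator hF, hind x]
  constructor
  · refine (ae_restrict_of_ae h1).mono fun x hx => ?_
    rw [hind x] at hx
    rw [IntegrableOn, hrestr x]
    rw [IntegrableOn, integrable_indicator_iff hF] at hx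
    exact hx
  · rw [htr]
    refine (eLpNorm_mono_measure _ Measure.restrict_le_self).trans (h2.trans (le_of_eq ?_))
    rw [eLpNorm_indicator_eq_eLpNorm_restrict hF]

end Vale.Agent.P120
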