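import Vale.Agent.Lib.P120.LemmaA2

open MeasureTheory Filter Set Metric
open scoped Topology ENNReal NNReal RealInnerProductSpace

namespace Vale.Agent.P120

variable {d n : ℕ} {μ : Measure (E d)} {C c D : ℝ}

/-- `⟨w - x, e⟩ / |w-x|^(n+1)`. -/
noncomputable def gfun (n : ℕ) (x e w : E d) : ℝ := inner ℝ (w - x) e * (‖w - x‖ ^ (n + 1))⁻¹

/-- `|w-x|² / (ρ |w-x|^(n+1))`. -/
noncomputable def hfun (n : ℕ) (x : E d) (ρ : ℝ) (w : E d) : ℝ :=
  ρ⁻¹ * (‖x - w‖ ^ 2 * (‖x - w‖ ^ (n + 1))⁻¹)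

lemma measurable_gfun (x e : E d) : Measurable (gfun n x e) := by
  unfold gfun; fun_prop

lemma measurable_hfun (x : E d) (ρ : ℝ) : Measurable (hfun n x ρ : E d → ℝ) := by
  unfold hfun; fun_prop

lemma gfun_eq (x e w : E d) : gfun n x e w = - inner ℝ e (rieszKernel n (x - w)) := by
  unfold gfun rieszKernel
  rw [real_inner_smul_right, ← neg_sub w x, inner_neg_right, norm_neg, real_inner_comm]
  ring

lemma hfun_nonneg (x : E d) {ρ : ℝ} (hρ : 0 < ρ) (w : E d) : 0 ≤ hfun n x ρ w := by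
  unfold hfun; positivity

lemma integrableOn_gfun (hU : UB n μ C) (x e : E d) {s ρ : ℝ} (hs : 0 < s) :
    IntegrableOn (gfun n x e) (ball x ρ \ ball x s) μ := by
  have h := (integrableOn_kernel (n := n) (hU.ball_lt_top x ρ) measurableSet_ball x hs)
  have h2 : IntegrableOn (fun w => - inner ℝ e (rieszKernel n (x - w))) (ball x ρ \ ball x s) μ :=
    (h.const_inner e).neg
  refine h2.congr ?_
  exact Eventually.of_forall fun w => (gfun_eq x e w).symm

lemma integral_gfun (hU : UB n μ C) (x e : E d) {s ρ : ℝ} (hs : 0 < s) :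
    ∫ w in ball x ρ \ ball x s, gfun n x e w ∂μ =
      - inner ℝ e (∫ w in ball x ρ \ ball x s, rieszKernel n (x - w) ∂μ) := by
  have h := (integrableOn_kernel (n := n) (hU.ball_lt_top x ρ) measurableSet_ball x hs)
  simp_rw [gfun_eq]
  rw [integral_neg, integral_inner h]

lemma integrableOn_hfun (hU : UB n μ C) (x : E d) {s ρ : ℝ} (hs : 0 < s) (hρ : 0 < ρ) :
    IntegrableOn (hfun n x ρ) (ball x ρ \ ball x s) μ := by
  refine Measure.integrableOn_of_bounded (M := ρ⁻¹ * (ρ ^ 2 * (s ^ (n + 1))⁻¹))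
    ((measure_mono sdiff_subset).trans_lt (hU.ball_lt_top x ρ)).ne
    (measurable_hfun x ρ).aestronglyMeasurable ?_
  rw [ae_restrict_iff' (measurableSet_ball.diff measurableSet_ball)]
  refine Eventually.of_forall fun w hw => ?_
  obtain ⟨h1, h2⟩ := hw
  rw [mem_ball, dist_comm, dist_eq_norm] at h1
  rw [mem_ball, not_lt, dist_comm, dist_eq_norm] at h2
  rw [Real.norm_eq_abs, abs_of_nonneg (hfun_nonneg x hρ w)]
  unfold hfun
  gcongr

lemma integral_hfun_le (hU : UB n μ C) (x : E d) {s ρ : ℝ} (hs : 0 < s) (hρ : 0 < ρ) :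
    ∫ w in ball x ρ \ ball x s, hfun n x ρ w ∂μ ≤ 2 * (C * 2 ^ (n + 1)) := by
  have hC := hU.1
  have hm : MeasurableSet (ball x ρ \ ball x s) := measurableSet_ball.diff measurableSet_ball
  rw [integral_eq_lintegral_of_nonneg_ae
    (Eventually.of_forall fun w => hfun_nonneg x hρ w) (measurable_hfun x ρ).aestronglyMeasurable]
  refine ENNReal.toReal_le_of_le_ofReal (by positivity) ?_
  calc ∫⁻ w in ball x ρ \ ball x s, ENNReal.ofReal (hfun n x ρ w) ∂μ
      ≤ ∫⁻ w in {w | 0 < ‖x - w‖ ∧ ‖x - w‖ < ρ}, ENNReal.ofReal (hfun n x ρ w) ∂μ := by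
        refine lintegral_mono_set ?_
        intro w hw
        obtain ⟨h1, h2⟩ := hw
        rw [mem_ball, dist_comm, dist_eq_norm] at h1
        rw [mem_ball, not_lt, dist_comm, dist_eq_norm] at h2
        exact ⟨hs.trans_le h2, h1⟩
    _ = ∫⁻ w in {w | 0 < ‖x - w‖ ∧ ‖x - w‖ < ρ}, ENNReal.ofReal ρ⁻¹ *
          ENNReal.ofReal (‖x - w‖ ^ 2 * (‖x - w‖ ^ (n + 1))⁻¹) ∂μ := by
        refine lintegral_congr fun w => ?_
        unfold hfun
        rw [ENNReal.ofReal_mul (by positivity)]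
    _ = ENNReal.ofReal ρ⁻¹ * ∫⁻ w in {w | 0 < ‖x - w‖ ∧ ‖x - w‖ < ρ},
          ENNReal.ofReal (‖x - w‖ ^ 2 * (‖x - w‖ ^ (n + 1))⁻¹) ∂μ :=
        lintegral_const_mul' _ _ ENNReal.ofReal_ne_top
    _ ≤ ENNReal.ofReal ρ⁻¹ * ENNReal.ofReal (2 * (C * 2 ^ (n + 1) * ρ)) := by
        gcongr
        exact lintegral_near_le hU x hρ
    _ = ENNReal.ofReal (2 * (C * 2 ^ (n + 1))) := by
        rw [← ENNReal.ofReal_mul (by positivity)]
        congr 1
        field_simp

lemma ball_geometry {x1 e y : E d} (he : ‖e‖ = 1) {θ t : ℝ} (ht : 0 < t) (hθ1 : θ ≤ 1 / 2)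
    (hyb : y ∈ ball x1 t) (hyθ : θ * t < inner ℝ (y - x1) e) {w : E d}
    (hw : w ∈ ball y (θ / 2 * t)) :
    θ / 2 * t < inner ℝ (w - x1) e ∧ θ / 2 * t < ‖w - x1‖ ∧ ‖w - x1‖ < 2 * t := by
  have hw' : ‖w - y‖ < θ / 2 * t := by
    rwa [mem_ball, dist_eq_norm] at hw
  have h1 : inner ℝ (w - x1) e = inner ℝ (w - y) e + inner ℝ (y - x1) e := by
    rw [← inner_add_left]; congr 1; abel
  have h2 : |inner ℝ (w - y) e| ≤ ‖w - y‖ := by
    have := abs_real_inner_le_norm (w - y) e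
    rwa [he, mul_one] at this
  have h3 := (abs_le.mp h2).1
  have h4 : θ / 2 * t < inner ℝ (w - x1) e := by rw [h1]; linarith
  have h5 : inner ℝ (w - x1) e ≤ ‖w - x1‖ := by
    have := real_inner_le_norm (w - x1) e
    rwa [he, mul_one] at this
  rw [mem_ball, dist_eq_norm] at hyb
  have h6 : ‖w - x1‖ ≤ ‖w - y‖ + ‖y - x1‖ := by
    have := norm_add_le (w - y) (y - x1)
    simpa using this
  exact ⟨h4, h4.trans_le h5, by nlinarith only [hθ1, hyb, hw', h4, h5, h6]⟩

lemma ball_contribution (hU : UB n μ C) {x1 e y : E d} {θ t ρ : ℝ} (hθ : 0 < θ)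
    (ht : 0 < t) (hρ : 0 < ρ)
    (hB : ∀ w ∈ ball y (θ / 2 * t), θ / 2 * t < inner ℝ (w - x1) e ∧ θ / 2 * t < ‖w - x1‖ ∧
      ‖w - x1‖ < 2 * t)
    (hlow : c * (θ / 2 * t) ^ n ≤ μ.real (ball y (θ / 2 * t)))
    (hii : IntegrableOn (gfun n x1 e + hfun n x1 ρ) (ball y (θ / 2 * t)) μ) :
    c * (θ / 4) ^ (n + 1) ≤ ∫ w in ball y (θ / 2 * t), (gfun n x1 e + hfun n x1 ρ) w ∂μ := by
  have hBfin : μ (ball y (θ / 2 * t)) < ∞ := hU.ball_lt_top _ _
  have hpt : ∀ w ∈ ball y (θ / 2 * t), (θ / 2 * t) * ((2 * t) ^ (n + 1))⁻¹ ≤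
      (gfun n x1 e + hfun n x1 ρ) w := by
    intro w hw
    obtain ⟨h3, h4, h5⟩ := hB w hw
    have h6 : 0 ≤ hfun n x1 ρ w := hfun_nonneg x1 hρ w
    have h7 : (θ / 2 * t) * ((2 * t) ^ (n + 1))⁻¹ ≤ gfun n x1 e w := by
      unfold gfun
      have h8 : 0 < ‖w - x1‖ := lt_trans (by positivity) h4
      have h9 : 0 ≤ inner ℝ (w - x1) e := le_trans (by positivity) h3.le
      gcongr
    simp only [Pi.add_apply]
    linarith
  have h9 := setIntegral_ge_of_const_le_real (μ := μ) measurableSet_ball hBfin.ne hpt hii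
  refine le_trans ?_ h9
  have h10 : c * (θ / 4) ^ (n + 1) =
      (θ / 2 * t) * ((2 * t) ^ (n + 1))⁻¹ * (c * (θ / 2 * t) ^ n) := by
    have e1 : (θ / 4 : ℝ) = (θ / 2 * t) * (2 * t)⁻¹ := by
      field_simp; norm_num
    rw [e1, mul_pow, inv_pow]
    ring
  rw [h10]
  gcongr

/-- One direction can be flattened at a controlled smaller scale. -/
lemma flatten (hU : UB n μ C) (hL : LB n μ c D) {C4 : ℝ} {θ : ℝ} (hθ : 0 < θ)
    (hθ1 : θ ≤ 1 / 2) :
    ∃ lam : ℝ, 0 < lam ∧ lam ≤ 1 ∧ ∀ x1 ∈ μ.support, ∀ e : E d, ‖e‖ = 1 → ∀ ρ : ℝ, 0 < ρ → ρ ≤ D →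
      (∀ s : ℝ, lam * ρ ≤ s → s ≤ ρ →
        ‖∫ y in ball x1 ρ \ ball x1 s, rieszKernel n (x1 - y) ∂μ‖ ≤ C4) →
      (∀ y ∈ μ.support, y ∈ ball x1 ρ → -(ρ⁻¹ * ‖x1 - y‖ ^ 2) ≤ inner ℝ (y - x1) e) →
      ∃ t : ℝ, lam * ρ ≤ t ∧ t ≤ ρ ∧ 0 < t ∧
        ∀ y ∈ μ.support, y ∈ ball x1 t → |inner ℝ (y - x1) e| ≤ θ * t := by
  have hC := hU.1
  obtain ⟨hc, hD, hlow⟩ := hL
  set κ : ℝ := θ / 4 with hκ
  have hκ0 : 0 < κ := by positivity
  have hκ1 : κ ≤ 1 := by rw [hκ]; linarith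
  set c7 : ℝ := c * (θ / 4) ^ (n + 1) with hc7
  have hc70 : 0 < c7 := by positivity
  set M : ℝ := C4 + 2 * (C * 2 ^ (n + 1)) with hM
  obtain ⟨J, hJ⟩ := exists_nat_gt (M / c7)
  have hJM : M < J * c7 := by rwa [div_lt_iff₀ hc70] at hJ
  refine ⟨κ ^ J * θ, by positivity, ?_, ?_⟩
  · calc κ ^ J * θ ≤ 1 * 1 := by
          gcongr
          · exact pow_le_one₀ hκ0.le hκ1
          · linarith
      _ = 1 := one_mul 1
  intro x1 hx1 e he ρ hρ hρD hint hhalf
  set lam : ℝ := κ ^ J * θ with hlam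
  have hlam0 : 0 < lam := by positivity
  set s : ℝ := lam * ρ with hs
  have hs0 : 0 < s := by positivity
  by_contra hcon
  push Not at hcon
  let t : ℕ → ℝ := fun j => κ ^ j * (θ * ρ)
  have ht0 : ∀ j, 0 < t j := fun j => by positivity
  have htθ : ∀ j, t j ≤ θ * ρ := by
    intro j
    calc κ ^ j * (θ * ρ) ≤ 1 * (θ * ρ) := by
          gcongr
          exact pow_le_one₀ hκ0.le hκ1
      _ = θ * ρ := one_mul _
  have htρ : ∀ j, t j ≤ ρ := fun j => (htθ j).trans (by nlinarith only [hθ1, hlam0, hs0])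
  have hts : ∀ j, j < J → s ≤ θ / 2 * t j := by
    intro j hj
    have h1 : κ ^ J ≤ κ ^ (j + 1) := pow_le_pow_of_le_one hκ0.le hκ1 hj
    calc s = κ ^ J * (θ * ρ) := by rw [hs, hlam]; ring
      _ ≤ κ ^ (j + 1) * (θ * ρ) := by gcongr
      _ = κ * t j := by simp only [t]; ring
      _ ≤ θ / 2 * t j := by
          have := ht0 j
          rw [hκ]
          nlinarith only [hθ, this]
  have hy : ∀ j, ∃ y : E d, j < J → y ∈ μ.support ∧ y ∈ ball x1 (t j) ∧
      θ * t j < inner ℝ (y - x1) e := by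
    intro j
    by_cases hj : j < J
    · have h1 : s ≤ t j := by
        have := hts j hj
        have := ht0 j
        nlinarith
      obtain ⟨y, hyS, hyb, hyθ⟩ := hcon (t j) h1 (htρ j) (ht0 j)
      refine ⟨y, fun _ => ⟨hyS, hyb, ?_⟩⟩
      rcases lt_abs.mp hyθ with h2 | h2
      · exact h2
      · exfalso
        have h3 := hhalf y hyS (ball_subset_ball (htρ j) hyb)
        rw [mem_ball, dist_comm, dist_eq_norm] at hyb
        have h4 : ‖x1 - y‖ ^ 2 < t j ^ 2 := by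
          have := norm_nonneg (x1 - y)
          nlinarith only [hyb, this]
        have h5 : θ * t j < ρ⁻¹ * t j ^ 2 := by
          have : ρ⁻¹ * ‖x1 - y‖ ^ 2 < ρ⁻¹ * t j ^ 2 := by
            have : 0 < ρ⁻¹ := by positivity
            nlinarith only [h4, this]
          linarith
        have h6 : θ * ρ < t j := by
          rw [inv_mul_eq_div, lt_div_iff₀ hρ] at h5
          have := ht0 j
          nlinarith only [h5, this]
        exact absurd (htθ j) (not_le.mpr h6)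
    · exact ⟨0, fun h => absurd h hj⟩
  choose y hy using hy
  let B : ℕ → Set (E d) := fun j => ball (y j) (θ / 2 * t j)
  -- properties of the points of `B j`
  have hBin : ∀ j, j < J → ∀ w ∈ B j, θ / 2 * t j < inner ℝ (w - x1) e ∧
      θ / 2 * t j < ‖w - x1‖ ∧ ‖w - x1‖ < 2 * t j := by
    intro j hj w hw
    obtain ⟨hyS, hyb, hyθ⟩ := hy j hj
    exact ball_geometry he (ht0 j) hθ1 hyb hyθ hw
  have hBsub : ∀ j, j < J → B j ⊆ ball x1 ρ \ ball x1 s := by
    intro j hj w hw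
    obtain ⟨_, h2, h3⟩ := hBin j hj w hw
    constructor
    · rw [mem_ball, dist_eq_norm]
      have h4 := htθ j
      nlinarith only [hθ1, hlam0, hs0, h3, h4]
    · rw [mem_ball, not_lt, dist_eq_norm]
      exact (hts j hj).trans h2.le
  have hdisj : Set.Pairwise (↑(Finset.range J)) (Function.onFun Disjoint B) := by
    have key : ∀ i j, i < J → j < J → i < j → Disjoint (B i) (B j) := by
      intro i j hi hj hij
      rw [Set.disjoint_left]
      intro w hwi hwj
      obtain ⟨_, h2, _⟩ := hBin i hi w hwi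
      obtain ⟨_, _, h3⟩ := hBin j hj w hwj
      have h4 : t j ≤ κ * t i := by
        have h5 : κ ^ j ≤ κ ^ (i + 1) := pow_le_pow_of_le_one hκ0.le hκ1 hij
        calc t j ≤ κ ^ (i + 1) * (θ * ρ) := by simp only [t]; gcongr
          _ = κ * t i := by simp only [t]; ring
      rw [hκ] at h4
      linarith
    intro i hi j hj hij
    simp only [Finset.coe_range, mem_Iio] at hi hj
    rcases lt_or_gt_of_ne hij with h | h
    · exact key i j hi hj h
    · exact (key j i hj hi h).symm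
  -- the integrand
  set Ann := ball x1 ρ \ ball x1 s with hAnn
  have hgi := integrableOn_gfun (n := n) hU x1 e (ρ := ρ) hs0
  have hhi := integrableOn_hfun (n := n) hU x1 hs0 hρ
  have hnn : 0 ≤ᵐ[μ.restrict Ann] (fun w => gfun n x1 e w + hfun n x1 ρ w) := by
    have h1 : ∀ᵐ w ∂μ, w ∈ μ.support := by
      rw [ae_iff]; exact Measure.measure_compl_support
    rw [EventuallyLE, ae_restrict_iff' (measurableSet_ball.diff measurableSet_ball)]
    filter_upwards [h1] with w hw hwA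
    have h2 := hhalf w hw hwA.1
    show 0 ≤ gfun n x1 e w + hfun n x1 ρ w
    unfold gfun hfun
    rw [norm_sub_rev w x1]
    have h3 : 0 ≤ (‖x1 - w‖ ^ (n + 1))⁻¹ := by positivity
    have h4 : 0 ≤ (inner ℝ (w - x1) e + ρ⁻¹ * ‖x1 - w‖ ^ 2) * (‖x1 - w‖ ^ (n + 1))⁻¹ :=
      mul_nonneg (by linarith) h3
    linarith
  have hupper : ∫ w in Ann, (gfun n x1 e w + hfun n x1 ρ w) ∂μ ≤ M := by
    rw [integral_add hgi hhi, integral_gfun hU x1 e hs0]
    have h1 := hint s le_rfl (by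
      have : lam ≤ 1 := by
        calc κ ^ J * θ ≤ 1 * 1 := by
              gcongr
              · exact pow_le_one₀ hκ0.le hκ1
              · linarith
          _ = 1 := one_mul 1
      rw [hs]; nlinarith only [hlam0, hs0, this])
    have h2 : |inner ℝ e (∫ w in Ann, rieszKernel n (x1 - w) ∂μ)| ≤ C4 := by
      refine (abs_real_inner_le_norm _ _).trans ?_
      rw [he, one_mul]
      exact h1
    have h3 := integral_hfun_le (n := n) hU x1 hs0 hρ
    have h4 := (abs_le.mp h2).1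
    linarith
  have hlower : J * c7 ≤ ∫ w in Ann, (gfun n x1 e w + hfun n x1 ρ w) ∂μ := by
    have hUsub : (⋃ i ∈ Finset.range J, B i) ⊆ Ann := by
      intro w hw
      simp only [mem_iUnion, Finset.mem_range] at hw
      obtain ⟨i, hi, hwi⟩ := hw
      exact hBsub i hi hwi
    have h1 := setIntegral_mono_set (hgi.add hhi) hnn hUsub.eventuallyLE
    refine le_trans ?_ h1
    have hii : ∀ i ∈ Finset.range J,
        IntegrableOn (gfun n x1 e + hfun n x1 ρ) (B i) μ := by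
      intro i hi
      exact (hgi.add hhi).mono_set (hBsub i (Finset.mem_range.mp hi))
    rw [integral_biUnion_finset _ (fun i _ => measurableSet_ball) hdisj hii]
    have h2 : ∀ i ∈ Finset.range J, c7 ≤ ∫ w in B i, (gfun n x1 e + hfun n x1 ρ) w ∂μ := by
      intro i hi
      have hiJ := Finset.mem_range.mp hi
      have hti := ht0 i
      have hlowB : c * (θ / 2 * t i) ^ n ≤ μ.real (B i) := by
        have h3 := hlow (y i) (hy i hiJ).1 (θ / 2 * t i) (by positivity) (by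
          have := htρ i
          nlinarith only [hθ1, hρD, hti, this])
        rw [measureReal_def]
        exact (ENNReal.ofReal_le_iff_le_toReal (hU.ball_lt_top _ _).ne).mp h3
      exact ball_contribution hU hθ hti hρ (hBin i hiJ) hlowB (hii i hi)
    calc (J : ℝ) * c7 = ∑ i ∈ Finset.range J, c7 := by simp
      _ ≤ _ := Finset.sum_le_sum h2
  linarith

end Vale.Agent.P120
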