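import Vale.Agent.Lib.P120.Main

open MeasureTheory Filter Set Metric Module
open scoped Topology ENNReal NNReal RealInnerProductSpace

namespace Vale.Agent.P120

variable {d n : ℕ} {μ : Measure (E d)}

/-- `μ` is homogeneous: there are `η, M > 0` such that every ball `B(x,r)`, `x ∈ supp μ`,
`0 < r ≤ diam (supp μ)`, contains a set `A ⊆ supp μ` with `μ(A) ≥ η r^n` which has an expanding
copy in every such ball `B(y,s)`: there is `φ : A → supp μ ∩ B(y,s)` with
`(s/r) |a - b| ≤ M |φ(a) - φ(b)|` for all `a, b ∈ A`. -/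
def Homogeneous (n : ℕ) (μ : Measure (E d)) : Prop :=
  ∃ η : ℝ, 0 < η ∧ ∃ M : ℝ, 0 < M ∧ ∀ x ∈ μ.support, ∀ r : ℝ, 0 < r → LeDiam r μ →
    ∃ A : Set (E d), A ⊆ μ.support ∩ ball x r ∧ ENNReal.ofReal (η * r ^ n) ≤ μ A ∧
      ∀ y ∈ μ.support, ∀ s : ℝ, 0 < s → LeDiam s μ →
        ∃ φ : E d → E d, MapsTo φ A (μ.support ∩ ball y s) ∧
          ∀ a ∈ A, ∀ b ∈ A, s / r * ‖a - b‖ ≤ M * ‖φ a - φ b‖

/-- A homogeneous AD-regular measure with bounded Riesz transform is uniformly rectifiable. -/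
theorem ur_of_homogeneous [IsLocallyFiniteMeasure μ] (hn : 1 ≤ n) (hnd : n ≤ d)
    (hAD : ADRegular n μ) (hR : RieszBounded n μ) (hH : Homogeneous n μ) :
    UniformlyRectifiable n μ := by
  by_cases hS : μ.support.Nontrivial
  swap
  · refine ⟨1, one_pos, 1, ?_⟩
    intro x hx r hr hrD
    exfalso
    have h1 : ediam μ.support = 0 := by
      by_contra h
      exact hS (Metric.ediam_pos_iff.mp (pos_iff_ne_zero.mpr h))
    rw [LeDiam, h1, nonpos_iff_eq_zero, ENNReal.ofReal_eq_zero] at hrD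
    linarith
  obtain ⟨η, hη, M, hM, hH⟩ := hH
  set K : ℝ≥0 := ⟨2 * M, by positivity⟩ with hK
  refine ⟨η, hη, lipschitzExtensionConstant (E d) * K, ?_⟩
  intro x hx r hr hrD
  obtain ⟨A, hA, hAμ, hAφ⟩ := hH x hx r hr hrD
  -- flat balls
  have hflat : ∀ j : ℕ, ∃ y ∈ μ.support, ∃ s : ℝ, 0 < s ∧ LeDiam s μ ∧
      ∃ V : Submodule ℝ (E d), finrank ℝ V = n ∧ Flat μ V (1 / ((j : ℝ) + 1)) y s := by
    intro j
    obtain ⟨y, hy, s, hs, hsD, -, V, hV, hVf, -⟩ :=
      exists_flat_ball hn hnd hAD hR hS (1 / ((j : ℝ) + 1)) (by positivity) x hx r hr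
    exact ⟨y, hy, s, hs, hsD, V, hV, hVf⟩
  -- approximate maps to `ℝ^n`
  have hF : ∀ j : ℕ, ∃ F : E d → E n, (∀ a ∈ A, ‖F a‖ ≤ 1 + 1 / ((j : ℝ) + 1)) ∧
      ∀ a ∈ A, ∀ b ∈ A, (M * r)⁻¹ * ‖a - b‖ - 2 * (1 / ((j : ℝ) + 1)) ≤ ‖F a - F b‖ := by
    intro j
    set θ : ℝ := 1 / ((j : ℝ) + 1) with hθ
    obtain ⟨y, hy, s, hs, hsD, V, hV, hVf⟩ := hflat j
    obtain ⟨φ, hφ, hφM⟩ := hAφ y hy s hs hsD
    have hv : ∀ a : E d, ∃ v : V, a ∈ A → ‖φ a - y - v‖ ≤ θ * s := by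
      intro a
      by_cases ha : a ∈ A
      · obtain ⟨v, hvV, hv⟩ := hVf (φ a) (hφ ha).1 (hφ ha).2
        exact ⟨⟨v, hvV⟩, fun _ => hv⟩
      · exact ⟨0, fun h => absurd h ha⟩
    choose v hv using hv
    let b := (stdOrthonormalBasis ℝ V).reindex (finCongr hV)
    refine ⟨fun a => s⁻¹ • b.repr (v a), ?_, ?_⟩
    · intro a ha
      rw [norm_smul, LinearIsometryEquiv.norm_map, Real.norm_eq_abs, abs_of_pos (by positivity)]
      have h1 : ‖(v a : V)‖ ≤ (1 + θ) * s := by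
        have h2 : ((v a : V) : E d) = (φ a - y) - (φ a - y - v a) := by abel
        have h3 : ‖((v a : V) : E d)‖ ≤ s + θ * s := by
          rw [h2]
          refine (norm_sub_le _ _).trans (add_le_add ?_ (hv a ha))
          have := (hφ ha).2
          rw [mem_ball, dist_eq_norm] at this
          exact this.le
        have h4 : ‖(v a : V)‖ = ‖((v a : V) : E d)‖ := rfl
        rw [h4]; linarith
      calc s⁻¹ * ‖v a‖ ≤ s⁻¹ * ((1 + θ) * s) := by gcongr
        _ = 1 + θ := by field_simp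
    · intro a ha a' ha'
      rw [← smul_sub, ← map_sub, norm_smul, LinearIsometryEquiv.norm_map, Real.norm_eq_abs,
        abs_of_pos (by positivity)]
      have h1 := hφM a ha a' ha'
      have h2 : ‖φ a - φ a'‖ ≤ ‖v a - v a'‖ + 2 * (θ * s) := by
        have h3 : φ a - φ a' = ((v a - v a' : V) : E d) +
            ((φ a - y - v a) - (φ a' - y - v a')) := by
          rw [Submodule.coe_sub]; abel
        rw [h3]
        refine (norm_add_le _ _).trans ?_
        have h4 : ‖(v a - v a' : V)‖ = ‖((v a - v a' : V) : E d)‖ := rfl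
        rw [h4]
        have h5 := norm_sub_le (φ a - y - v a) (φ a' - y - v a')
        have h6 := hv a ha
        have h7 := hv a' ha'
        linarith
      have h3 : s / r * ‖a - a'‖ ≤ M * (‖v a - v a'‖ + 2 * (θ * s)) :=
        h1.trans (by gcongr)
      have h4 : (M * r)⁻¹ * ‖a - a'‖ = (M * s)⁻¹ * (s / r * ‖a - a'‖) := by
        field_simp
      have h5 : s⁻¹ * ‖v a - v a'‖ = (M * s)⁻¹ * (M * (‖v a - v a'‖ + 2 * (θ * s))) - 2 * θ := by
        field_simp
        ring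
      rw [h4, h5]
      have h6 : (M * s)⁻¹ * (s / r * ‖a - a'‖) ≤ (M * s)⁻¹ * (M * (‖v a - v a'‖ + 2 * (θ * s))) := by
        gcongr
      linarith
  choose F hF1 hF2 using hF
  -- limit along an ultrafilter
  let 𝒰 : Ultrafilter ℕ := hyperfilter ℕ
  have hθ0 : Tendsto (fun j : ℕ => 1 / ((j : ℝ) + 1)) 𝒰 (𝓝 0) :=
    (tendsto_one_div_add_atTop_nhds_zero_nat (𝕜 := ℝ)).mono_left Nat.hyperfilter_le_atTop
  have hlim : ∀ a : E d, ∃ w : E n, a ∈ A → Tendsto (fun j => F j a) 𝒰 (𝓝 w) := by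
    intro a
    by_cases ha : a ∈ A
    · have hc : IsCompact (closedBall (0 : E n) 2) := isCompact_closedBall _ _
      have hmem : ∀ᶠ j in (𝒰 : Filter ℕ), F j a ∈ closedBall (0 : E n) 2 := by
        refine Eventually.of_forall fun j => ?_
        rw [mem_closedBall, dist_zero_right]
        refine (hF1 j a ha).trans ?_
        have : 1 / ((j : ℝ) + 1) ≤ 1 := by
          rw [div_le_one (by positivity)]
          have : (0 : ℝ) ≤ j := by positivity
          linarith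
        linarith
      obtain ⟨w, -, hw⟩ := hc.ultrafilter_le_nhds (𝒰.map (fun j => F j a)) (by
        rw [le_principal_iff]
        exact hmem)
      exact ⟨w, fun _ => hw⟩
    · exact ⟨0, fun h => absurd h ha⟩
  choose G hG using hlim
  have hG1 : ∀ a ∈ A, ‖G a‖ ≤ 1 := by
    intro a ha
    have h1 : Tendsto (fun j : ℕ => 1 + 1 / ((j : ℝ) + 1)) 𝒰 (𝓝 (1 + 0)) := hθ0.const_add 1
    rw [add_zero] at h1
    exact le_of_tendsto_of_tendsto (hG a ha).norm h1 (Eventually.of_forall fun j => hF1 j a ha)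
  have hG2 : ∀ a ∈ A, ∀ b ∈ A, (M * r)⁻¹ * ‖a - b‖ ≤ ‖G a - G b‖ := by
    intro a ha b hb
    have h1 : Tendsto (fun j : ℕ => (M * r)⁻¹ * ‖a - b‖ - 2 * (1 / ((j : ℝ) + 1))) 𝒰
        (𝓝 ((M * r)⁻¹ * ‖a - b‖ - 2 * 0)) := (hθ0.const_mul 2).const_sub _
    rw [mul_zero, sub_zero] at h1
    exact le_of_tendsto_of_tendsto h1 ((hG a ha).sub (hG b hb)).norm
      (Eventually.of_forall fun j => hF2 j a ha b hb)
  -- rescale
  let H : E d → E n := fun a => (r / 2) • G a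
  have hH1 : ∀ a ∈ A, H a ∈ ball (0 : E n) r := by
    intro a ha
    rw [mem_ball, dist_zero_right]
    simp only [H]
    rw [norm_smul, Real.norm_eq_abs, abs_of_pos (by positivity)]
    have := hG1 a ha
    nlinarith
  have hH2 : ∀ a ∈ A, ∀ b ∈ A, ‖a - b‖ ≤ 2 * M * ‖H a - H b‖ := by
    intro a ha b hb
    have h1 := hG2 a ha b hb
    simp only [H]
    rw [← smul_sub, norm_smul, Real.norm_eq_abs, abs_of_pos (by positivity)]
    calc ‖a - b‖ = (M * r) * ((M * r)⁻¹ * ‖a - b‖) := by field_simp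
      _ ≤ (M * r) * ‖G a - G b‖ := by gcongr
      _ = 2 * M * (r / 2 * ‖G a - G b‖) := by ring
  have hinj : InjOn H A := by
    intro a ha b hb hab
    have h1 := hH2 a ha b hb
    rw [hab, sub_self, norm_zero, mul_zero] at h1
    exact sub_eq_zero.mp (norm_le_zero_iff.mp h1)
  -- the inverse map
  rcases A.eq_empty_or_nonempty with hAe | hAne
  · rw [hAe, measure_empty, nonpos_iff_eq_zero, ENNReal.ofReal_eq_zero] at hAμ
    have : 0 < η * r ^ n := by positivity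
    linarith
  have : Nonempty (E d) := ⟨x⟩
  let ψ : E n → E d := Function.invFunOn H A
  have hψ : ∀ a ∈ A, ψ (H a) = a := fun a ha => hinj.leftInvOn_invFunOn ha
  have hlip : LipschitzOnWith K ψ (H '' A) := by
    refine LipschitzOnWith.of_dist_le_mul ?_
    rintro _ ⟨a, ha, rfl⟩ _ ⟨b, hb, rfl⟩
    rw [hψ a ha, hψ b hb, dist_eq_norm, dist_eq_norm]
    exact hH2 a ha b hb
  obtain ⟨g, hg, hgψ⟩ := hlip.extend_finite_dimension
  refine ⟨g, hg.lipschitzOnWith, hAμ.trans (measure_mono ?_)⟩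
  intro a ha
  refine ⟨(hA ha).2, H a, hH1 a ha, ?_⟩
  rw [← hgψ ⟨a, ha, rfl⟩, hψ a ha]

end Vale.Agent.P120
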