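import Mathlib.Tactic
import Mathlib.Topology.UniformSpace.Uniformizable
import Mathlib.RingTheory.RegularLocalRing.Defs
import Mathlib.Order.CompletePartialOrder
import Mathlib.RingTheory.SimpleRing.Principal
import Mathlib.MeasureTheory.Order.Group.Lattice
import Mathlib.MeasureTheory.Measure.Support
import Mathlib.MeasureTheory.Integral.RieszMarkovKakutani.Real
import Mathlib.MeasureTheory.Function.SpecialFunctions.Inner
import Mathlib.MeasureTheory.Measure.Decomposition.RadonNikodym
import Mathlib.MeasureTheory.Constructions.HaarToSphere
import Mathlib.MeasureTheory.Measure.RegularityCompacts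
import Mathlib.Analysis.SpecialFunctions.ImproperIntegrals
import Mathlib.MeasureTheory.Function.ContinuousMapDense
import Mathlib.MeasureTheory.Function.L2Space
import Mathlib.Analysis.Calculus.LineDeriv.IntegrationByParts
import Mathlib.Analysis.Calculus.BumpFunction.SmoothApprox
import Mathlib.Algebra.Order.Chebyshev
import Mathlib.Algebra.Order.Archimedean.Real.Hom
import Mathlib.RingTheory.Flat.TorsionFree
import Mathlib.LinearAlgebra.FreeModule.PID

/-!
# P120 Imp: the part of Mathlib used by the P120 files (faster to load than all of Mathlib).
-/
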