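import Vale.Agent.Lib.P120.Bounds

open MeasureTheory Filter Set Metric Module
open scoped Topology ENNReal NNReal RealInnerProductSpace

namespace Vale.Agent.P120

variable {d n : ℕ} {μ : Measure (E d)} {C c D : ℝ}

/-- An AD-regular set of dimension `n` has holes of proportional size in every `k`-plane,
`k > n`. -/
lemma porosity (hU : UB n μ C) (hL : LB n μ c D) (k : ℕ) (hk : n < k) :
    ∃ c0 : ℝ, 0 < c0 ∧ c0 ≤ 1 / 8 ∧ ∀ x0 ∈ μ.support, ∀ r0 : ℝ, 0 < r0 → r0 ≤ D →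
      ∀ V : Submodule ℝ (E d), finrank ℝ V = k →
        ∃ z ∈ V, ‖z‖ ≤ r0 / 4 ∧ ∀ y ∈ μ.support, c0 * r0 ≤ ‖y - (x0 + z)‖ := by
  obtain ⟨hC, hup⟩ := hU
  obtain ⟨hc, hD, hlow⟩ := hL
  have hk0 : 0 < k := lt_of_le_of_lt (Nat.zero_le n) hk
  have hkR : (1 : ℝ) ≤ k := by exact_mod_cast hk0
  obtain ⟨N, hN⟩ := exists_nat_gt (C / c * (16 * k) ^ n)
  have hN0 : (0 : ℝ) < N := lt_of_le_of_lt (by positivity) hN
  have hN1 : (1 : ℝ) ≤ N := by
    have : 0 < N := by exact_mod_cast hN0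
    exact_mod_cast this
  set c0 : ℝ := 1 / (16 * k * N) with hc0
  have hc00 : 0 < c0 := by positivity
  have hc08 : c0 ≤ 1 / 16 := by
    rw [hc0]
    apply one_div_le_one_div_of_le (by norm_num)
    linarith only [mul_le_mul hkR hN1 zero_le_one (by positivity)]
  refine ⟨c0, hc00, by linarith, ?_⟩
  intro x0 hx0 r0 hr0 hr0D V hV
  by_contra hcon
  push Not at hcon
  subst hV
  set k := finrank ℝ V with hkdef
  let b := stdOrthonormalBasis ℝ V
  set a : ℝ := 4 * c0 * r0 with ha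
  have ha0 : 0 < a := by positivity
  let vec : (Fin k → Fin N) → EuclideanSpace ℝ (Fin k) := fun m => WithLp.toLp 2 (fun i => ((m i : ℕ) : ℝ))
  let z : (Fin k → Fin N) → E d := fun m => a • ((b.repr.symm (vec m) : V) : E d)
  have hn : ∀ v : V, ‖(v : E d)‖ = ‖v‖ := fun v => rfl
  have hzV : ∀ m, z m ∈ V := fun m => V.smul_mem _ (Subtype.mem _)
  have hvecnorm : ∀ m, ‖vec m‖ ≤ k * N := by
    intro m
    rw [EuclideanSpace.norm_eq]
    apply Real.sqrt_le_iff.mpr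
    refine ⟨by positivity, ?_⟩
    have h1 : ∀ i ∈ (Finset.univ : Finset (Fin k)), ‖vec m i‖ ^ 2 ≤ (N : ℝ) ^ 2 := by
      intro i _
      have h2 : ((m i : ℕ) : ℝ) ≤ N := by exact_mod_cast (m i).2.le
      have h3 : (0 : ℝ) ≤ ((m i : ℕ) : ℝ) := Nat.cast_nonneg _
      simp only [vec, Real.norm_eq_abs, abs_of_nonneg h3]
      gcongr
    refine (Finset.sum_le_sum h1).trans ?_
    simp only [Finset.sum_const, Finset.card_univ, Fintype.card_fin, nsmul_eq_mul]
    rw [mul_pow]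
    have : (k : ℝ) ≤ (k : ℝ) ^ 2 := by nlinarith only [hkR]
    gcongr
  have hznorm : ∀ m, ‖z m‖ ≤ r0 / 4 := by
    intro m
    simp only [z]
    rw [norm_smul, Real.norm_eq_abs, abs_of_pos ha0, hn, LinearIsometryEquiv.norm_map]
    calc a * ‖vec m‖ ≤ a * (k * N) := by gcongr; exact hvecnorm m
      _ = r0 / 4 := by rw [ha, hc0]; field_simp; norm_num
  have hzsep : ∀ m m', m ≠ m' → a ≤ ‖z m - z m'‖ := by
    intro m m' hmm
    obtain ⟨i, hi⟩ := Function.ne_iff.mp hmm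
    have e1 : z m - z m' = a • ((b.repr.symm (vec m - vec m') : V) : E d) := by
      simp only [z, map_sub, smul_sub, Submodule.coe_sub]
    rw [e1, norm_smul, Real.norm_eq_abs, abs_of_pos ha0, hn, LinearIsometryEquiv.norm_map]
    have h1 : (1 : ℝ) ≤ ‖vec m - vec m'‖ := by
      refine le_trans ?_ (PiLp.norm_apply_le (vec m - vec m') i)
      simp only [vec, PiLp.sub_apply, Real.norm_eq_abs]
      have h2 : ((m i : ℕ) : ℤ) - ((m' i : ℕ) : ℤ) ≠ 0 := by
        intro h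
        apply hi
        apply Fin.ext
        omega
      have h3 : (1 : ℤ) ≤ |((m i : ℕ) : ℤ) - ((m' i : ℕ) : ℤ)| := Int.one_le_abs h2
      have h4 : ((1 : ℤ) : ℝ) ≤ ((|((m i : ℕ) : ℤ) - ((m' i : ℕ) : ℤ)| : ℤ) : ℝ) := by
        exact_mod_cast h3
      simpa using h4
    nlinarith only [ha0, h1]
  have hy : ∀ m, ∃ y ∈ μ.support, ‖y - (x0 + z m)‖ < c0 * r0 := fun m => hcon (z m) (hzV m) (hznorm m)
  choose y hyS hy using hy
  have hsep : ∀ m m', m ≠ m' → c0 * r0 + c0 * r0 ≤ dist (y m) (y m') := by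
    intro m m' hmm
    have h1 := hzsep m m' hmm
    have h2 := hy m
    have h3 := hy m'
    rw [dist_eq_norm]
    have h4 : z m - z m' = (y m - y m') - (y m - (x0 + z m)) + (y m' - (x0 + z m')) := by abel
    have h5 : ‖z m - z m'‖ ≤ ‖y m - y m'‖ + ‖y m - (x0 + z m)‖ + ‖y m' - (x0 + z m')‖ := by
      rw [h4]
      exact (norm_add_le _ _).trans (by gcongr; exact norm_sub_le _ _)
    rw [ha] at h1
    linarith
  have hdisj : Pairwise (Function.onFun Disjoint (fun m => ball (y m) (c0 * r0))) := by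
    intro m m' hmm
    exact ball_disjoint_ball (hsep m m' hmm)
  have hsub : (⋃ m, ball (y m) (c0 * r0)) ⊆ ball x0 r0 := by
    intro w hw
    obtain ⟨m, hm⟩ := mem_iUnion.mp hw
    rw [mem_ball, dist_eq_norm] at hm ⊢
    have h1 := hy m
    have h2 := hznorm m
    have h3 : w - x0 = (w - y m) + (y m - (x0 + z m)) + z m := by abel
    rw [h3]
    have h4 : ‖(w - y m) + (y m - (x0 + z m)) + z m‖ ≤ ‖w - y m‖ + ‖y m - (x0 + z m)‖ + ‖z m‖ :=
      (norm_add_le _ _).trans (by gcongr; exact norm_add_le _ _)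
    nlinarith only [hc00, hc08, ha0, hm, h1, h2, h4]
  have hmeas : ∑ m : Fin k → Fin N, μ (ball (y m) (c0 * r0)) ≤ ENNReal.ofReal (C * r0 ^ n) := by
    have h := measure_iUnion (μ := μ) hdisj (fun m => measurableSet_ball)
    rw [tsum_fintype] at h
    rw [← h]
    exact (measure_mono hsub).trans ((measure_mono ball_subset_closedBall).trans (hup x0 r0 hr0))
  have hlow' : ∀ m : Fin k → Fin N, ENNReal.ofReal (c * (c0 * r0) ^ n) ≤
      μ (ball (y m) (c0 * r0)) := by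
    intro m
    refine hlow (y m) (hyS m) (c0 * r0) (by positivity) ?_
    nlinarith only [hr0, hr0D, hc08]
  have hcount : ENNReal.ofReal ((N : ℝ) ^ k * (c * (c0 * r0) ^ n)) ≤
      ENNReal.ofReal (C * r0 ^ n) := by
    refine le_trans (le_of_eq ?_) ((Finset.sum_le_sum fun m _ => hlow' m).trans hmeas)
    rw [Finset.sum_const, Finset.card_univ, Fintype.card_fun, Fintype.card_fin, Fintype.card_fin,
      nsmul_eq_mul, ENNReal.ofReal_mul (by positivity), ENNReal.ofReal_pow hN0.le,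
      ENNReal.ofReal_natCast]
    push_cast
    rfl
  rw [ENNReal.ofReal_le_ofReal_iff (by positivity)] at hcount
  have hNk : (N : ℝ) * (N : ℝ) ^ n ≤ (N : ℝ) ^ k := by
    rw [← pow_succ']
    exact pow_le_pow_right₀ hN1 hk
  have h1 : (N : ℝ) * (N : ℝ) ^ n * (c * (c0 * r0) ^ n) ≤ C * r0 ^ n :=
    le_trans (by gcongr) hcount
  have h2 : (N : ℝ) * (N : ℝ) ^ n * (c * (c0 * r0) ^ n) =
      (N : ℝ) * c * ((16 * (k : ℝ)) ^ n)⁻¹ * r0 ^ n := by
    have e1 : c0 * r0 = (16 * (k : ℝ))⁻¹ * (N : ℝ)⁻¹ * r0 := by rw [hc0]; field_simp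
    rw [e1, mul_pow, mul_pow, inv_pow, inv_pow]
    field_simp
  rw [h2] at h1
  have h3 : (N : ℝ) * c * ((16 * (k : ℝ)) ^ n)⁻¹ ≤ C := by
    have : 0 < r0 ^ n := by positivity
    exact le_of_mul_le_mul_right h1 this
  have h4 : (N : ℝ) ≤ C / c * (16 * k) ^ n := by
    rw [← div_eq_mul_inv, div_le_iff₀ (by positivity)] at h3
    rw [div_mul_eq_mul_div, le_div_iff₀ hc]
    exact h3
  linarith

end Vale.Agent.P120
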