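import Vale.Agent.Lib.P120.Flatten
import Vale.Agent.Lib.P120.Porosity

open MeasureTheory Filter Set Metric Module
open scoped Topology ENNReal NNReal RealInnerProductSpace

namespace Vale.Agent.P120

variable {d n : ℕ} {μ : Measure (E d)} {C c D : ℝ}

/-- The support is, inside `B(x₀,r₀)`, within `θ r₀` of `x₀ + V`. -/
def Flat (μ : Measure (E d)) (V : Submodule ℝ (E d)) (θ : ℝ) (x0 : E d) (r0 : ℝ) : Prop :=
  ∀ y ∈ μ.support, y ∈ ball x0 r0 → ∃ v ∈ V, ‖y - x0 - v‖ ≤ θ * r0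

/-- Linear algebra part of the dimension reduction. -/
lemma flat_reduce {V : Submodule ℝ (E d)} {θ lam c0 r0 t ρ : ℝ} {x0 x1 z : E d}
    (hc0 : 0 < c0) (hθ : 0 < θ) (hθ1 : θ ≤ 1) (hlam0 : 0 < lam) (hlam1 : lam ≤ 1)
    (hr0 : 0 < r0) (hρ0 : 0 < ρ) (ht0 : 0 < t)
    (hzV : z ∈ V) (hVflat : Flat μ V (θ * lam * c0 / 12) x0 r0)
    (hx1S : x1 ∈ μ.support) (hx1b : x1 ∈ ball x0 r0) (hsub : ball x1 t ⊆ ball x0 r0)
    (hρlow : c0 * r0 ≤ ρ) (htlow : lam * c0 * r0 ≤ t)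
    (he'n : ‖ρ⁻¹ • (x1 - (x0 + z))‖ = 1)
    (ht : ∀ y ∈ μ.support, y ∈ ball x1 t →
      |inner ℝ (y - x1) (ρ⁻¹ • (x1 - (x0 + z)))| ≤ θ / 4 * t) :
    ∃ V' : Submodule ℝ (E d), finrank ℝ V' < finrank ℝ V ∧ Flat μ V' θ x1 t := by
  set θ' : ℝ := θ * lam * c0 / 12 with hθ'
  have hθ'0 : 0 < θ' := by positivity
  set e' : E d := ρ⁻¹ • (x1 - (x0 + z)) with he'
  obtain ⟨v1, hv1V, hv1⟩ := hVflat x1 hx1S hx1b
  set e1 : E d := ρ⁻¹ • (v1 - z) with he1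
  have he1V : e1 ∈ V := V.smul_mem _ (V.sub_mem hv1V hzV)
  have hee : ‖e' - e1‖ ≤ θ' / c0 := by
    have h1 : e' - e1 = ρ⁻¹ • (x1 - x0 - v1) := by
      rw [he', he1, ← smul_sub]; congr 1; abel
    rw [h1, norm_smul, Real.norm_eq_abs, abs_of_pos (by positivity)]
    calc ρ⁻¹ * ‖x1 - x0 - v1‖ ≤ ρ⁻¹ * (θ' * r0) := by gcongr
      _ ≤ (c0 * r0)⁻¹ * (θ' * r0) := by gcongr
      _ = θ' / c0 := by field_simp
  have hθc : θ' / c0 ≤ 1 / 2 := by
    rw [hθ', div_le_iff₀ hc0]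
    have : θ * lam ≤ 1 := by nlinarith only [hθ1, hlam0, hlam1]
    nlinarith only [hc0, this]
  have he1n : 1 / 2 ≤ ‖e1‖ := by
    have h1 : ‖e'‖ ≤ ‖e1‖ + ‖e' - e1‖ := by
      have := norm_add_le e1 (e' - e1)
      simpa using this
    rw [he'n] at h1
    linarith
  have he1pos : 0 < ‖e1‖ := by linarith
  have he10 : e1 ≠ 0 := norm_pos_iff.mp he1pos
  refine ⟨V ⊓ (ℝ ∙ e1)ᗮ, ?_, ?_⟩
  · apply Submodule.finrank_lt_finrank_of_lt
    refine lt_of_le_of_ne inf_le_left ?_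
    intro h
    have h1 : e1 ∈ V ⊓ (ℝ ∙ e1)ᗮ := by rw [h]; exact he1V
    have h2 := (Submodule.mem_inf.mp h1).2
    rw [Submodule.mem_orthogonal_singleton_iff_inner_right] at h2
    exact he10 (inner_self_eq_zero.mp h2)
  · intro y hyS hyb
    obtain ⟨v2, hv2V, hv2⟩ := hVflat y hyS (hsub hyb)
    set v : E d := v2 - v1 with hv
    have hvV : v ∈ V := V.sub_mem hv2V hv1V
    set a : ℝ := inner ℝ v e1 / ‖e1‖ ^ 2 with ha
    refine ⟨v - a • e1, ?_, ?_⟩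
    · refine Submodule.mem_inf.mpr ⟨V.sub_mem hvV (V.smul_mem _ he1V), ?_⟩
      rw [Submodule.mem_orthogonal_singleton_iff_inner_left, inner_sub_left,
        real_inner_smul_left, real_inner_self_eq_norm_sq, ha]
      field_simp
      ring
    · have hyv : ‖y - x1 - v‖ ≤ 2 * (θ' * r0) := by
        have h1 : y - x1 - v = (y - x0 - v2) - (x1 - x0 - v1) := by rw [hv]; abel
        rw [h1]
        refine (norm_sub_le _ _).trans ?_
        linarith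
      have hyt : ‖y - x1‖ < t := by rwa [mem_ball, dist_eq_norm] at hyb
      have hyin : |inner ℝ (y - x1) e'| ≤ θ / 4 * t := ht y hyS hyb
      have hve : |inner ℝ v e1| ≤ 2 * (θ' * r0) * ‖e1‖ + t * (θ' / c0) + θ / 4 * t := by
        have h1 : inner ℝ v e1 = -(inner ℝ (y - x1 - v) e1) - inner ℝ (y - x1) (e' - e1) +
            inner ℝ (y - x1) e' := by
          rw [inner_sub_left (y - x1) v, inner_sub_right]; ring
        rw [h1]
        have h2 : |inner ℝ (y - x1 - v) e1| ≤ 2 * (θ' * r0) * ‖e1‖ :=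
          (abs_real_inner_le_norm _ _).trans (by gcongr)
        have h3 : |inner ℝ (y - x1) (e' - e1)| ≤ t * (θ' / c0) :=
          (abs_real_inner_le_norm _ _).trans (by gcongr)
        calc |-(inner ℝ (y - x1 - v) e1) - inner ℝ (y - x1) (e' - e1) + inner ℝ (y - x1) e'|
            ≤ |-(inner ℝ (y - x1 - v) e1) - inner ℝ (y - x1) (e' - e1)| +
                |inner ℝ (y - x1) e'| := abs_add_le _ _
          _ ≤ |-(inner ℝ (y - x1 - v) e1)| + |inner ℝ (y - x1) (e' - e1)| +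
                |inner ℝ (y - x1) e'| := by gcongr; exact abs_sub _ _
          _ ≤ _ := by rw [abs_neg]; gcongr
      have hr0t : θ' * r0 ≤ θ / 12 * t := by
        have : θ' * r0 = θ / 12 * (lam * c0 * r0) := by rw [hθ']; ring
        rw [this]; gcongr
      have hθct : θ' / c0 ≤ θ / 12 := by
        rw [hθ', div_le_iff₀ hc0]
        nlinarith only [mul_pos hθ hc0, hlam1]
      have hnorm : ‖a • e1‖ ≤ 2 * (θ' * r0) + 2 * (t * (θ' / c0)) + 2 * (θ / 4 * t) := by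
        rw [norm_smul, ha, Real.norm_eq_abs, abs_div, abs_of_nonneg (a := ‖e1‖ ^ 2) (by positivity)]
        have e3 : |inner ℝ v e1| / ‖e1‖ ^ 2 * ‖e1‖ = |inner ℝ v e1| / ‖e1‖ := by
          field_simp
        rw [e3, div_le_iff₀ he1pos]
        refine hve.trans ?_
        have h4 : 0 ≤ t * (θ' / c0) + θ / 4 * t := by positivity
        nlinarith only [he1n, h4]
      have hsplit : y - x1 - (v - a • e1) = (y - x1 - v) + a • e1 := by abel
      rw [hsplit]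
      refine (norm_add_le _ _).trans ?_
      have h5 : t * (θ' / c0) ≤ t * (θ / 12) := by gcongr
      linarith only [hyv, hr0t, hnorm, h5]


/-- Reduction of the dimension by one. -/
lemma reduce_step (hU : UB n μ C) (hL : LB n μ c D) {C4 : ℝ} {c0 : ℝ} (hc0 : 0 < c0)
    {θ : ℝ} (hθ : 0 < θ) (hθ1 : θ ≤ 1) :
    ∃ lam : ℝ, 0 < lam ∧ lam ≤ 1 ∧ ∀ δ : ℝ, 0 < δ → ∀ x0 ∈ μ.support, ∀ r0 : ℝ, 0 < r0 → r0 ≤ D →
      ∀ V : Submodule ℝ (E d), Good n μ C4 (min δ 1 * lam * c0) x0 r0 →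
        Flat μ V (θ * lam * c0 / 12) x0 r0 →
        (∃ z ∈ V, ‖z‖ ≤ r0 / 4 ∧ ∀ y ∈ μ.support, c0 * r0 ≤ ‖y - (x0 + z)‖) →
        ∃ x1 ∈ μ.support, ∃ t : ℝ, 0 < t ∧ lam * c0 * r0 ≤ t ∧ ball x1 t ⊆ ball x0 r0 ∧ t ≤ r0 ∧
          Good n μ C4 δ x1 t ∧ 
          ∃ V' : Submodule ℝ (E d), finrank ℝ V' < finrank ℝ V ∧ Flat μ V' θ x1 t := by
  obtain ⟨lam, hlam0, hlam1, hflat⟩ := flatten hU hL (C4 := C4) (θ := θ / 4) (by positivity)
    (by linarith)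
  refine ⟨lam, hlam0, hlam1, ?_⟩
  intro δ hδ x0 hx0 r0 hr0 hr0D V hgood hVflat hz
  obtain ⟨z, hzV, hznorm, hzfar⟩ := hz
  set δ' : ℝ := min δ 1 * lam * c0 with hδ'
  set θ' : ℝ := θ * lam * c0 / 12 with hθ'
  have hmin0 : 0 < min δ 1 := lt_min hδ one_pos
  have hδ'0 : 0 < δ' := by positivity
  have hθ'0 : 0 < θ' := by positivity
  -- the nearest point
  obtain ⟨x1, hx1S, hx1⟩ := Measure.isClosed_support (μ := μ).exists_infDist_eq_dist ⟨x0, hx0⟩ (x0 + z)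
  set ρ : ℝ := infDist (x0 + z) μ.support with hρ
  have hρn : ‖x1 - (x0 + z)‖ = ρ := by rw [hx1, dist_comm, dist_eq_norm]
  have hρlow : c0 * r0 ≤ ρ := by rw [← hρn]; exact hzfar x1 hx1S
  have hρ0 : 0 < ρ := lt_of_lt_of_le (by positivity) hρlow
  have hρup : ρ ≤ r0 / 4 := by
    refine (infDist_le_dist_of_mem hx0).trans ?_
    rw [dist_eq_norm]
    simpa using hznorm
  have hρmin : ∀ y ∈ μ.support, ρ ≤ ‖y - (x0 + z)‖ := by
    intro y hy
    have := infDist_le_dist_of_mem (x := x0 + z) hy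
    rwa [dist_comm, dist_eq_norm] at this
  set e' : E d := ρ⁻¹ • (x1 - (x0 + z)) with he'
  have he'n : ‖e'‖ = 1 := by
    rw [he', norm_smul, hρn, Real.norm_eq_abs, abs_of_pos (by positivity), inv_mul_cancel₀ hρ0.ne']
  have hx10 : ‖x1 - x0‖ ≤ r0 / 2 := by
    have h1 : x1 - x0 = (x1 - (x0 + z)) + z := by abel
    rw [h1]
    refine (norm_add_le _ _).trans ?_
    rw [hρn]; linarith
  have hx1b : x1 ∈ ball x0 r0 := by
    rw [mem_ball, dist_eq_norm]; linarith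
  -- half space property
  have hhalf : ∀ y ∈ μ.support, y ∈ ball x1 ρ → -(ρ⁻¹ * ‖x1 - y‖ ^ 2) ≤ inner ℝ (y - x1) e' := by
    intro y hy _
    have h1 := hρmin y hy
    have h2 : ‖y - (x0 + z)‖ ^ 2 = ‖y - x1‖ ^ 2 + 2 * inner ℝ (y - x1) (x1 - (x0 + z)) + ρ ^ 2 := by
      have : y - (x0 + z) = (y - x1) + (x1 - (x0 + z)) := by abel
      rw [this, norm_add_sq_real, hρn]
    have h3 : ρ ^ 2 ≤ ‖y - (x0 + z)‖ ^ 2 := by gcongr
    have h4 : inner ℝ (y - x1) e' = ρ⁻¹ * inner ℝ (y - x1) (x1 - (x0 + z)) := by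
      rw [he', real_inner_smul_right]
    rw [h4, norm_sub_rev x1 y, ← mul_neg]
    have h5 : 0 < ρ⁻¹ := by positivity
    have h6 : -‖y - x1‖ ^ 2 ≤ inner ℝ (y - x1) (x1 - (x0 + z)) := by
      have : 0 ≤ ‖y - x1‖ ^ 2 := by positivity
      linarith
    exact mul_le_mul_of_nonneg_left h6 h5.le
  -- bounded integrals at `x1`
  have hint : ∀ s : ℝ, lam * ρ ≤ s → s ≤ ρ →
      ‖∫ y in ball x1 ρ \ ball x1 s, rieszKernel n (x1 - y) ∂μ‖ ≤ C4 := by
    intro s hs1 hs2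
    refine hgood x1 hx1S hx1b s ρ ?_ hs2 (by linarith)
    refine le_trans ?_ hs1
    calc min δ 1 * lam * c0 * r0 ≤ 1 * lam * (c0 * r0) := by
          rw [mul_assoc (min δ 1 * lam)]
          gcongr
          exact min_le_right _ _
      _ ≤ lam * ρ := by rw [one_mul]; gcongr
  obtain ⟨t, ht1, ht2, ht0, ht⟩ := hflat x1 hx1S e' he'n ρ hρ0 (by linarith) hint hhalf
  have htlow : lam * c0 * r0 ≤ t := by
    refine le_trans ?_ ht1
    rw [mul_assoc]; gcongr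
  have hsub : ball x1 t ⊆ ball x0 r0 := by
    intro w hw
    rw [mem_ball, dist_eq_norm] at hw ⊢
    have h1 : w - x0 = (w - x1) + (x1 - x0) := by abel
    rw [h1]
    have := norm_add_le (w - x1) (x1 - x0)
    linarith
  refine ⟨x1, hx1S, t, ht0, htlow, hsub, by linarith, ?_, ?_⟩
  · intro x hx hxb s s' hs1 hs2 hs3
    refine hgood x hx (hsub hxb) s s' ?_ hs2 (by linarith)
    refine le_trans ?_ hs1
    calc min δ 1 * lam * c0 * r0 = min δ 1 * (lam * c0 * r0) := by ring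
      _ ≤ δ * t := by
          gcongr
          exact min_le_left _ _
  exact flat_reduce hc0 hθ hθ1 hlam0 hlam1 hr0 hρ0 ht0 hzV hVflat hx1S hx1b hsub hρlow htlow
    he'n ht

lemma Flat.mono {V : Submodule ℝ (E d)} {θ θ' : ℝ} {x0 : E d} {r0 : ℝ} (h : Flat μ V θ x0 r0)
    (hr0 : 0 ≤ r0) (hθ : θ ≤ θ') : Flat μ V θ' x0 r0 := by
  intro y hy hyb
  obtain ⟨v, hv, h1⟩ := h y hy hyb
  exact ⟨v, hv, h1.trans (by gcongr)⟩

lemma Good.mono {C4 δ δ' : ℝ} {x0 : E d} {r0 : ℝ} (h : Good n μ C4 δ x0 r0)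
    (hr0 : 0 ≤ r0) (hδ : δ ≤ δ') : Good n μ C4 δ' x0 r0 := by
  intro x hx hxb s s' h1 h2 h3
  exact h x hx hxb s s' (le_trans (by gcongr) h1) h2 h3

/-- Existence of balls which are unilaterally flat in dimension `k ≥ n`. -/
theorem exists_flat_of_good (hU : UB n μ C) (hL : LB n μ c D) {C4 : ℝ}
    (hgood : ∀ xs ∈ μ.support, ∀ rs : ℝ, 0 < rs → ∀ δ : ℝ, 0 < δ → 
      ∃ x0 ∈ μ.support, ∃ r0 : ℝ, 0 < r0 ∧ r0 ≤ D ∧ ball x0 r0 ⊆ ball xs rs ∧
        Good n μ C4 δ x0 r0) :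
    ∀ j k : ℕ, k + j = d → n ≤ k → ∀ θ : ℝ, 0 < θ → ∀ δ : ℝ, 0 < δ → ∀ xs ∈ μ.support,
      ∀ rs : ℝ, 0 < rs → 
      ∃ x0 ∈ μ.support, ∃ r0 : ℝ, 0 < r0 ∧ r0 ≤ D ∧ ball x0 r0 ⊆ ball xs rs ∧
        Good n μ C4 δ x0 r0 ∧ ∃ V : Submodule ℝ (E d), finrank ℝ V ≤ k ∧ Flat μ V θ x0 r0 := by
  intro j
  induction j with
  | zero =>
    intro k hk _ θ hθ δ hδ xs hxs rs hrs
    obtain ⟨x0, hx0, r0, hr0, hr0D, hsub, hg⟩ := hgood xs hxs rs hrs δ hδ
    refine ⟨x0, hx0, r0, hr0, hr0D, hsub, hg, ⊤, ?_, ?_⟩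
    · rw [finrank_top, finrank_euclideanSpace, Fintype.card_fin]; omega
    · intro y _ _
      refine ⟨y - x0, Submodule.mem_top, ?_⟩
      rw [sub_self, norm_zero]; positivity
  | succ j ih =>
    intro k hk hnk θ hθ δ hδ xs hxs rs hrs
    obtain ⟨c0, hc0, hc01, hpor⟩ := porosity hU hL (k + 1) (by omega)
    have hθm : 0 < min θ 1 := lt_min hθ one_pos
    obtain ⟨lam, hlam0, hlam1, hstep⟩ := reduce_step hU hL (C4 := C4) hc0 hθm (min_le_right _ _)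
    obtain ⟨x0, hx0, r0, hr0, hr0D, hsub, hg, V, hVk, hV⟩ :=
      ih (k + 1) (by omega) (by omega) (min θ 1 * lam * c0 / 12) (by positivity)
        (min δ 1 * lam * c0) (mul_pos (mul_pos (lt_min hδ one_pos) hlam0) hc0) xs hxs rs hrs
    rcases Nat.lt_or_ge (finrank ℝ V) (k + 1) with hlt | hge
    · refine ⟨x0, hx0, r0, hr0, hr0D, hsub, hg.mono hr0.le ?_, V, by omega, hV.mono hr0.le ?_⟩
      · calc min δ 1 * lam * c0 ≤ δ * 1 * 1 := by
              gcongr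
              · exact min_le_left _ _
              · linarith
          _ = δ := by ring
      · have h1 : min θ 1 * lam * c0 ≤ θ * 1 * 1 := by
          gcongr
          · exact min_le_left _ _
          · linarith
        linarith
    · have hVeq : finrank ℝ V = k + 1 := le_antisymm hVk hge
      obtain ⟨x1, hx1, t, ht0, htlow, hsub1, htr, hg1, V', hV'1, hV'2⟩ :=
        hstep δ hδ x0 hx0 r0 hr0 hr0D V hg hV (hpor x0 hx0 r0 hr0 hr0D V hVeq)
      exact ⟨x1, hx1, t, ht0, htr.trans hr0D, hsub1.trans hsub, hg1, V', by omega,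
        hV'2.mono ht0.le (min_le_left _ _)⟩

end Vale.Agent.P120
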