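import Vale.Agent.Lib.P120.Defs

open MeasureTheory Filter Set Metric
open scoped Topology ENNReal NNReal RealInnerProductSpace

namespace Vale.Agent.P120

variable {d n : ℕ}

lemma norm_rieszKernel_le (z : E d) : ‖rieszKernel n z‖ ≤ (‖z‖ ^ n)⁻¹ := by
  unfold rieszKernel
  rw [norm_smul, norm_inv, norm_pow, norm_norm]
  rcases eq_or_ne z 0 with rfl | hz
  · simp
  · have h : 0 < ‖z‖ := norm_pos_iff.mpr hz
    rw [pow_succ, mul_inv, mul_assoc, inv_mul_cancel₀ h.ne', mul_one]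

lemma rieszKernel_neg (z : E d) : rieszKernel n (-z) = - rieszKernel n z := by
  simp [rieszKernel]

lemma rieszKernel_sub_comm (x y : E d) : rieszKernel n (y - x) = - rieszKernel n (x - y) := by
  rw [← rieszKernel_neg, neg_sub]

lemma measurable_rieszKernel : Measurable (rieszKernel n : E d → E d) := by
  unfold rieszKernel
  fun_prop

lemma norm_rieszKernel_le_of_le {z : E d} {ε : ℝ} (hε : 0 < ε) (h : ε ≤ ‖z‖) :
    ‖rieszKernel n z‖ ≤ (ε ^ n)⁻¹ :=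
  (norm_rieszKernel_le z).trans (by gcongr)

/-- Lipschitz estimate of the kernel away from the origin. -/
lemma rieszKernel_lipschitz (a b : E d) (ha : a ≠ 0) (h : 2 * ‖a - b‖ ≤ ‖a‖) :
    ‖rieszKernel n a - rieszKernel n b‖ ≤
      ((n + 2) * 4 ^ (n + 1)) * ‖a - b‖ * (‖a‖ ^ (n + 1))⁻¹ := by
  have hA : 0 < ‖a‖ := norm_pos_iff.mpr ha
  have h1 : ‖a‖ ≤ ‖b‖ + ‖a - b‖ := by
    have := norm_add_le b (a - b)
    simpa using this
  have h2 : ‖b‖ ≤ ‖a‖ + ‖a - b‖ := by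
    have := norm_sub_le a (a - b)
    simpa using this
  have hB1 : ‖a‖ ≤ 2 * ‖b‖ := by linarith
  have hB2 : ‖b‖ ≤ 2 * ‖a‖ := by linarith [norm_nonneg (a - b)]
  have hB : 0 < ‖b‖ := by linarith
  set A := ‖a‖ with hAdef
  set B := ‖b‖ with hBdef
  set D := ‖a - b‖ with hDdef
  have hD : 0 ≤ D := norm_nonneg _
  have key : |(A ^ (n + 1))⁻¹ - (B ^ (n + 1))⁻¹| * B ≤
      ((n + 1) * 4 ^ (n + 1)) * D * (A ^ (n + 1))⁻¹ := by
    have e1 : (A ^ (n + 1))⁻¹ - (B ^ (n + 1))⁻¹ =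
        (B ^ (n + 1) - A ^ (n + 1)) * (A ^ (n + 1))⁻¹ * (B ^ (n + 1))⁻¹ := by
      field_simp
    have e2 : |B ^ (n + 1) - A ^ (n + 1)| ≤ D * ((n + 1) * (2 * A) ^ n) := by
      have hBA : |B - A| ≤ D := by
        rw [abs_sub_le_iff]; constructor <;> linarith
      have hgeom := Commute.mul_geom_sum₂ (Commute.all B A) (n + 1)
      rw [← hgeom, abs_mul]
      refine mul_le_mul hBA ?_ (abs_nonneg _) hD
      refine (Finset.abs_sum_le_sum_abs _ _).trans ?_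
      have : ∀ i ∈ Finset.range (n + 1), |B ^ i * A ^ (n + 1 - 1 - i)| ≤ (2 * A) ^ n := by
        intro i hi
        rw [Finset.mem_range] at hi
        rw [abs_of_nonneg (by positivity)]
        calc B ^ i * A ^ (n + 1 - 1 - i) ≤ (2 * A) ^ i * (2 * A) ^ (n + 1 - 1 - i) := by
              gcongr; linarith
          _ = (2 * A) ^ n := by rw [← pow_add]; congr 1; omega
      refine (Finset.sum_le_sum this).trans ?_
      simp
    rw [e1, abs_mul, abs_mul, abs_of_pos (a := (A ^ (n + 1))⁻¹) (by positivity),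
      abs_of_pos (a := (B ^ (n + 1))⁻¹) (by positivity)]
    have e3 : (B ^ (n + 1))⁻¹ * B = (B ^ n)⁻¹ := by
      rw [pow_succ, mul_inv, mul_assoc, inv_mul_cancel₀ hB.ne', mul_one]
    have e4 : (B ^ n)⁻¹ ≤ 2 ^ n * (A ^ n)⁻¹ := by
      have : (B ^ n)⁻¹ ≤ ((A / 2) ^ n)⁻¹ := by gcongr; linarith
      refine this.trans (le_of_eq ?_)
      rw [div_pow, inv_div, div_eq_mul_inv]
    calc |B ^ (n + 1) - A ^ (n + 1)| * (A ^ (n + 1))⁻¹ * (B ^ (n + 1))⁻¹ * B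
        = |B ^ (n + 1) - A ^ (n + 1)| * (A ^ (n + 1))⁻¹ * (B ^ n)⁻¹ := by rw [mul_assoc, e3]
      _ ≤ (D * ((n + 1) * (2 * A) ^ n)) * (A ^ (n + 1))⁻¹ * (2 ^ n * (A ^ n)⁻¹) := by gcongr
      _ = ((n + 1) * 4 ^ n) * D * (A ^ (n + 1))⁻¹ := by
          have : (4 : ℝ) ^ n = 2 ^ n * 2 ^ n := by rw [← mul_pow]; norm_num
          rw [this, mul_pow]
          field_simp
      _ ≤ ((n + 1) * 4 ^ (n + 1)) * D * (A ^ (n + 1))⁻¹ := by
          gcongr
          · norm_num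
          · omega
  have split : rieszKernel n a - rieszKernel n b =
      (A ^ (n + 1))⁻¹ • (a - b) + ((A ^ (n + 1))⁻¹ - (B ^ (n + 1))⁻¹) • b := by
    simp only [rieszKernel, ← hAdef, ← hBdef, smul_sub, sub_smul]
    abel
  rw [split]
  refine (norm_add_le _ _).trans ?_
  rw [norm_smul, norm_smul, Real.norm_eq_abs, Real.norm_eq_abs,
    abs_of_pos (a := (A ^ (n + 1))⁻¹) (by positivity), ← hDdef, ← hBdef]
  have h4 : (1 : ℝ) ≤ 4 ^ (n + 1) := one_le_pow₀ (by norm_num)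
  have : (A ^ (n + 1))⁻¹ * D ≤ 4 ^ (n + 1) * D * (A ^ (n + 1))⁻¹ := by
    have h0 : 0 ≤ D * (A ^ (n + 1))⁻¹ := by positivity
    nlinarith only [h4, h0]
  calc _ ≤ 4 ^ (n + 1) * D * (A ^ (n + 1))⁻¹ + ((n + 1) * 4 ^ (n + 1)) * D * (A ^ (n + 1))⁻¹ :=
        add_le_add this key
    _ = _ := by ring

end Vale.Agent.P120
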