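import Vale.Agent.Lib.P120.Imp

open Filter Set Metric InnerProductSpace
open scoped Topology RealInnerProductSpace

namespace Vale.Agent.P120

lemma exists_weak_limit {H : Type*} [NormedAddCommGroup H] [InnerProductSpace ℝ H]
    [CompleteSpace H] (F : ℕ → H) (M : ℝ) (hF : ∀ i, ‖F i‖ ≤ M) (W : Ultrafilter ℕ) :
    ∃ f : H, ∀ h : H, Tendsto (fun i => ⟪h, F i⟫_ℝ) W (𝓝 ⟪h, f⟫_ℝ) := by
  have hM : 0 ≤ M := (norm_nonneg _).trans (hF 0)
  have key : ∀ h : H, ∃ L : ℝ, |L| ≤ M * ‖h‖ ∧ Tendsto (fun i => ⟪h, F i⟫_ℝ) W (𝓝 L) := by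
    intro h
    have hc : IsCompact (Icc (-(M * ‖h‖)) (M * ‖h‖)) := isCompact_Icc
    have hmem : ∀ i, ⟪h, F i⟫_ℝ ∈ Icc (-(M * ‖h‖)) (M * ‖h‖) := by
      intro i
      rw [mem_Icc, ← abs_le]
      refine (abs_real_inner_le_norm _ _).trans ?_
      rw [mul_comm]
      gcongr
      exact hF i
    obtain ⟨L, hL, hLim⟩ := hc.ultrafilter_le_nhds (W.map (fun i => ⟪h, F i⟫_ℝ)) (by
      rw [Ultrafilter.coe_map, le_principal_iff, mem_map]
      exact Filter.Eventually.of_forall hmem)
    refine ⟨L, ?_, hLim⟩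
    rw [mem_Icc, ← abs_le] at hL
    exact hL
  choose L hL hLim using key
  let lin : H →ₗ[ℝ] ℝ :=
    { toFun := L
      map_add' := by
        intro x y
        have h1 := (hLim x).add (hLim y)
        have h2 := hLim (x + y)
        simp only [inner_add_left] at h2
        exact tendsto_nhds_unique h2 h1
      map_smul' := by
        intro a x
        have h1 := (hLim x).const_mul a
        have h2 := hLim (a • x)
        simp only [real_inner_smul_left] at h2
        exact tendsto_nhds_unique h2 h1 }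
  let cont : H →L[ℝ] ℝ := lin.mkContinuous M (by intro x; exact hL x)
  refine ⟨(InnerProductSpace.toDual ℝ H).symm cont, fun h => ?_⟩
  have h1 : ⟪(InnerProductSpace.toDual ℝ H).symm cont, h⟫_ℝ = L h := by
    rw [InnerProductSpace.toDual_symm_apply]
    rfl
  rw [real_inner_comm, h1]
  exact hLim h

end Vale.Agent.P120
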