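import Vale.Agent.Lib.P120.Trunc
import Vale.Agent.Lib.P120.WeakLimit

open MeasureTheory Filter Set Metric
open scoped Topology ENNReal NNReal RealInnerProductSpace

namespace Vale.Agent.P120

variable {d n : ℕ} {μ : Measure (E d)} {C c D : ℝ}

lemma norm_setIntegral_le_of_eLpNorm {F : E d → E d} (hF : AEStronglyMeasurable F μ)
    {A : Set (E d)} (hA : μ A < ∞) {K : ℝ} (hK : 0 ≤ K)
    (h : eLpNorm F 2 μ ≤ ENNReal.ofReal K) :
    ‖∫ x in A, F x ∂μ‖ ≤ K * Real.sqrt (μ.real A) := by
  have h1 : ‖∫ x in A, F x ∂μ‖ₑ ≤ ENNReal.ofReal (K * Real.sqrt (μ.real A)) := by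
    calc ‖∫ x in A, F x ∂μ‖ₑ ≤ ∫⁻ x in A, ‖F x‖ₑ ∂μ := enorm_integral_le_lintegral_enorm _
      _ = eLpNorm F 1 (μ.restrict A) := (eLpNorm_one_eq_lintegral_enorm).symm
      _ ≤ eLpNorm F 2 (μ.restrict A) *
          (μ.restrict A) univ ^ (1 / (1 : ℝ≥0∞).toReal - 1 / (2 : ℝ≥0∞).toReal) :=
          eLpNorm_le_eLpNorm_mul_rpow_measure_univ (by norm_num) hF.restrict
      _ ≤ ENNReal.ofReal K * (μ A) ^ (1 / 2 : ℝ) := by
          gcongr
          · exact (eLpNorm_mono_measure _ Measure.restrict_le_self).trans h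
          · have h3 : (1 : ℝ) - 2⁻¹ = 2⁻¹ := by norm_num
            simp [h3]
      _ = ENNReal.ofReal (K * Real.sqrt (μ.real A)) := by
          rw [ENNReal.ofReal_mul hK, Real.sqrt_eq_rpow,
            ← ENNReal.ofReal_rpow_of_nonneg (by positivity) (by norm_num),
            ofReal_measureReal hA.ne]
  have h2 := ENNReal.toReal_mono ENNReal.ofReal_ne_top h1
  rw [toReal_enorm, ENNReal.toReal_ofReal (by positivity)] at h2
  exact h2

/-- `∫_{S \ B(x,s)} K(x-w) dμ(w)`. -/
noncomputable def G (n : ℕ) (μ : Measure (E d)) (S : Set (E d)) (x : E d) (s : ℝ) : E d :=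
  ∫ w in S \ ball x s, rieszKernel n (x - w) ∂μ

lemma integrableOn_kernel {S : Set (E d)} (hS : μ S < ∞) (hSm : MeasurableSet S) (x : E d) {s : ℝ}
    (hs : 0 < s) : IntegrableOn (fun w => rieszKernel n (x - w)) (S \ ball x s) μ := by
  refine Measure.integrableOn_of_bounded (M := (s ^ n)⁻¹)
    ((measure_mono sdiff_subset).trans_lt hS).ne
    (measurable_rieszKernel.comp (by fun_prop)).aestronglyMeasurable ?_
  rw [ae_restrict_iff' (hSm.diff measurableSet_ball)]
  refine Eventually.of_forall fun w hw => norm_rieszKernel_le_of_le hs ?_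
  have := hw.2
  rw [mem_ball, not_lt, dist_comm, dist_eq_norm] at this
  exact this

lemma G_sub_G {S : Set (E d)} (hS : μ S < ∞) (hSm : MeasurableSet S) (x : E d) {s s' : ℝ}
    (hs : 0 < s) (hss : s ≤ s') (hsub : ball x s' ⊆ S) :
    G n μ S x s - G n μ S x s' = ∫ y in ball x s' \ ball x s, rieszKernel n (x - y) ∂μ := by
  have h1 : S \ ball x s = (S \ ball x s') ∪ (ball x s' \ ball x s) := by
    ext w
    simp only [Set.mem_sdiff, mem_union]
    constructor
    · rintro ⟨h1, h2⟩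
      by_cases h3 : w ∈ ball x s'
      · exact Or.inr ⟨h3, h2⟩
      · exact Or.inl ⟨h1, h3⟩
    · rintro (⟨h1, h2⟩ | ⟨h1, h2⟩)
      · exact ⟨h1, fun h => h2 (ball_subset_ball hss h)⟩
      · exact ⟨hsub h1, h2⟩
  have hd : Disjoint (S \ ball x s') (ball x s' \ ball x s) := by
    rw [Set.disjoint_left]
    rintro w ⟨_, h2⟩ ⟨h3, _⟩
    exact h2 h3
  unfold G
  rw [h1, setIntegral_union hd (measurableSet_ball.diff measurableSet_ball)
    (integrableOn_kernel hS hSm x (hs.trans_le hss))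
    ((integrableOn_kernel hS hSm x hs).mono_set (by
      intro w hw; exact ⟨hsub hw.1, hw.2⟩))]
  abel

lemma far_difference (hU : UB n μ C) {S : Set (E d)} (hS : μ S < ∞) (hSm : MeasurableSet S)
    (x y : E d) {r ε : ℝ} (hr : 0 < r) (hε : 0 < ε) (hεr : ε < r) (hy : y ∈ ball x r) :
    ‖T n μ (S \ ball x (2 * r)) ε y - G n μ S x (2 * r)‖ ≤
      (n + 2) * 4 ^ (n + 1) * (C * 2 ^ n) := by
  have hC := hU.1
  rw [mem_ball, dist_eq_norm] at hy
  have hm : MeasurableSet (S \ ball x (2 * r)) := hSm.diff measurableSet_ball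
  have hfar : ∀ w ∈ S \ ball x (2 * r), 2 * r ≤ ‖x - w‖ := by
    intro w hw
    have := hw.2
    rwa [mem_ball, not_lt, dist_comm, dist_eq_norm] at this
  have hTy : T n μ (S \ ball x (2 * r)) ε y =
      ∫ w in S \ ball x (2 * r), rieszKernel n (y - w) ∂μ := by
    rw [T_eq]
    refine setIntegral_congr_fun hm ?_
    intro w hw
    have h1 := hfar w hw
    have h2 : ‖x - w‖ ≤ ‖y - w‖ + ‖y - x‖ := by
      have := norm_sub_le (y - w) (y - x)
      simpa using this
    have h3 : ε < ‖y - w‖ := by linarith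
    simp only [tk]
    rw [indicator_of_mem (by exact h3)]
  rw [hTy]
  unfold G
  have hi1 : IntegrableOn (fun w => rieszKernel n (y - w)) (S \ ball x (2 * r)) μ := by
    refine Measure.integrableOn_of_bounded (M := (r ^ n)⁻¹)
      ((measure_mono sdiff_subset).trans_lt hS).ne
      (measurable_rieszKernel.comp (by fun_prop)).aestronglyMeasurable ?_
    rw [ae_restrict_iff' hm]
    refine Eventually.of_forall fun w hw => norm_rieszKernel_le_of_le hr ?_
    have h1 := hfar w hw
    have h2 : ‖x - w‖ ≤ ‖y - w‖ + ‖y - x‖ := by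
      have := norm_sub_le (y - w) (y - x)
      simpa using this
    linarith
  have hi2 := integrableOn_kernel (n := n) hS hSm x (s := 2 * r) (by positivity)
  rw [← integral_sub hi1 hi2]
  -- pointwise bound
  set L : ℝ := (n + 2) * 4 ^ (n + 1) with hL
  have hL0 : 0 < L := by positivity
  have hpt : ∀ w ∈ S \ ball x (2 * r), ‖rieszKernel n (y - w) - rieszKernel n (x - w)‖ₑ ≤
      ENNReal.ofReal (L * r) * ENNReal.ofReal ((‖x - w‖ ^ (n + 1))⁻¹) := by
    intro w hw
    have h1 := hfar w hw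
    have h2 := rieszKernel_lipschitz (n := n) (x - w) (y - w)
      (by intro h; rw [h, norm_zero] at h1; linarith)
      (by
        have : x - w - (y - w) = -(y - x) := by abel
        rw [this, norm_neg]; linarith)
    rw [← norm_neg, neg_sub] at h2
    have h3 : x - w - (y - w) = -(y - x) := by abel
    rw [h3, norm_neg] at h2
    rw [← ENNReal.ofReal_mul (by positivity), ← ofReal_norm]
    apply ENNReal.ofReal_le_ofReal
    refine h2.trans ?_
    gcongr
  have hfin : ‖∫ w in S \ ball x (2 * r),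
      (rieszKernel n (y - w) - rieszKernel n (x - w)) ∂μ‖ₑ ≤
      ENNReal.ofReal (L * (C * 2 ^ n)) := by
    calc _ ≤ ∫⁻ w in S \ ball x (2 * r), ‖rieszKernel n (y - w) - rieszKernel n (x - w)‖ₑ ∂μ :=
          enorm_integral_le_lintegral_enorm _
      _ ≤ ∫⁻ w in S \ ball x (2 * r),
          ENNReal.ofReal (L * r) * ENNReal.ofReal ((‖x - w‖ ^ (n + 1))⁻¹) ∂μ :=
          setLIntegral_mono' hm hpt
      _ ≤ ∫⁻ w in {w | 2 * r ≤ ‖x - w‖},
          ENNReal.ofReal (L * r) * ENNReal.ofReal ((‖x - w‖ ^ (n + 1))⁻¹) ∂μ :=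
          lintegral_mono_set hfar
      _ = ENNReal.ofReal (L * r) * ∫⁻ w in {w | 2 * r ≤ ‖x - w‖},
          ENNReal.ofReal ((‖x - w‖ ^ (n + 1))⁻¹) ∂μ :=
          lintegral_const_mul' _ _ ENNReal.ofReal_ne_top
      _ ≤ ENNReal.ofReal (L * r) * ENNReal.ofReal (2 * (C * 2 ^ n / (2 * r))) := by
          gcongr
          exact lintegral_tail_le hU x (by positivity)
      _ = ENNReal.ofReal (L * (C * 2 ^ n)) := by
          rw [← ENNReal.ofReal_mul (by positivity)]
          congr 1
          field_simp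
  have h2 := ENNReal.toReal_mono ENNReal.ofReal_ne_top hfin
  rw [toReal_enorm, ENNReal.toReal_ofReal (by positivity)] at h2
  exact h2

end Vale.Agent.P120
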