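import Vale.Agent.Lib.P120.LemmaA

open MeasureTheory Filter Set Metric
open scoped Topology ENNReal NNReal RealInnerProductSpace

namespace Vale.Agent.P120

variable {d n : ℕ} {μ : Measure (E d)} {C c D : ℝ}

/-- The averaging estimate for a fixed truncation. -/
lemma average_estimate [SFinite μ] (hU : UB n μ C) (hc : 0 < c) {CR : ℝ} (hCR : 0 ≤ CR)
    (hR : ∀ f : E d → ℝ, MemLp f 2 μ → ∀ ε : ℝ, 0 < ε →
      eLpNorm (rieszTrunc n μ ε f) 2 μ ≤ ENNReal.ofReal CR * eLpNorm f 2 μ)
    {S : Set (E d)} (hS : μ S < ∞) (hSm : MeasurableSet S)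
    (x : E d) {r ε : ℝ} (hr : 0 < r) (hε : 0 < ε) (hεr : ε < r)
    (hsub : ball x (2 * r) ⊆ S) (hlow : c * r ^ n ≤ μ.real (ball x r)) :
    ‖∫ y in ball x r, T n μ S ε y ∂μ - μ.real (ball x r) • G n μ S x (2 * r)‖ ≤
      (CR * Real.sqrt (C * 2 ^ n / c) + (n + 2) * 4 ^ (n + 1) * (C * 2 ^ n)) *
        μ.real (ball x r) := by
  have hC := hU.1
  set A := ball x r with hAdef
  have hAS : A ⊆ ball x (2 * r) := ball_subset_ball (by linarith)
  have hAfin : μ A < ∞ := hU.ball_lt_top x r
  have hBfin : μ (ball x (2 * r)) < ∞ := hU.ball_lt_top x _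
  set S2 := ball x (2 * r) \ A with hS2
  set S3 := S \ ball x (2 * r) with hS3
  have hS2m : MeasurableSet S2 := measurableSet_ball.diff measurableSet_ball
  have hS3m : MeasurableSet S3 := hSm.diff measurableSet_ball
  have hS2fin : μ S2 < ∞ := (measure_mono sdiff_subset).trans_lt hBfin
  have hS3fin : μ S3 < ∞ := (measure_mono sdiff_subset).trans_lt hS
  have hdecomp : ∀ y, T n μ S ε y = T n μ A ε y + T n μ S2 ε y + T n μ S3 ε y := by
    intro y
    have h1 : S = (A ∪ S2) ∪ S3 := by
      ext w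
      simp only [hS2, hS3, mem_union, Set.mem_sdiff]
      constructor
      · intro hw
        by_cases h1 : w ∈ ball x (2 * r)
        · by_cases h2 : w ∈ A
          · exact Or.inl (Or.inl h2)
          · exact Or.inl (Or.inr ⟨h1, h2⟩)
        · exact Or.inr ⟨hw, h1⟩
      · rintro ((h | h) | h)
        · exact hsub (hAS h)
        · exact hsub h.1
        · exact h.1
    have hd1 : Disjoint (A ∪ S2) S3 := by
      rw [Set.disjoint_left]
      rintro w (hw | hw) ⟨_, h3⟩
      · exact h3 (hAS hw)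
      · exact h3 hw.1
    have hd2 : Disjoint A S2 := by
      rw [Set.disjoint_left]
      rintro w hw ⟨_, h3⟩
      exact h3 hw
    conv_lhs => rw [h1]
    rw [T_union hε y ((measure_union_le _ _).trans_lt (ENNReal.add_lt_top.mpr ⟨hAfin, hS2fin⟩))
      hS3fin hS3m hd1, T_union hε y hAfin hS2fin hS2m hd2]
  -- integrability on `A`
  have hint : ∀ S' : Set (E d), μ S' < ∞ → IntegrableOn (T n μ S' ε) A μ := by
    intro S' hS'
    refine Measure.integrableOn_of_bounded (M := (ε ^ n)⁻¹ * μ.real S') hAfin.ne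
      (stronglyMeasurable_T S' ε).aestronglyMeasurable ?_
    exact Eventually.of_forall fun y => norm_T_le hε y hS'
  have hsum : ∫ y in A, T n μ S ε y ∂μ =
      ∫ y in A, T n μ S2 ε y ∂μ + ∫ y in A, T n μ S3 ε y ∂μ := by
    simp_rw [hdecomp]
    have hi12 : IntegrableOn (fun y => T n μ A ε y + T n μ S2 ε y) A μ :=
      (hint A hAfin).add (hint S2 hS2fin)
    rw [integral_add hi12 (hint S3 hS3fin),
      integral_add (hint A hAfin) (hint S2 hS2fin), setIntegral_T_self hε hAfin, zero_add]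
  -- second term
  have hrn : 0 < r ^ n := by positivity
  have h2 : ‖∫ y in A, T n μ S2 ε y ∂μ‖ ≤ CR * Real.sqrt (C * 2 ^ n / c) * μ.real A := by
    have hb : eLpNorm (T n μ S2 ε) 2 μ ≤
        ENNReal.ofReal (CR * Real.sqrt (C * 2 ^ n * r ^ n)) := by
      refine (eLpNorm_T_le hR hS2m hS2fin hε).trans ?_
      rw [ENNReal.ofReal_mul hCR]
      gcongr
      rw [Real.sqrt_eq_rpow, ← ENNReal.ofReal_rpow_of_nonneg (by positivity) (by norm_num)]
      gcongr
      refine (measure_mono sdiff_subset).trans ((hU.ball x (by positivity)).trans ?_)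
      rw [mul_pow, mul_assoc]
    refine (norm_setIntegral_le_of_eLpNorm
      (stronglyMeasurable_T S2 ε).aestronglyMeasurable hAfin (by positivity) hb).trans ?_
    have e1 : Real.sqrt (C * 2 ^ n * r ^ n) =
        Real.sqrt (C * 2 ^ n / c) * Real.sqrt (c * r ^ n) := by
      rw [← Real.sqrt_mul (by positivity)]
      congr 1
      field_simp
    have e2 : Real.sqrt (c * r ^ n) * Real.sqrt (μ.real A) ≤ μ.real A := by
      calc Real.sqrt (c * r ^ n) * Real.sqrt (μ.real A) ≤
            Real.sqrt (μ.real A) * Real.sqrt (μ.real A) := by gcongr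
        _ = μ.real A := Real.mul_self_sqrt measureReal_nonneg
    rw [e1]
    calc CR * (Real.sqrt (C * 2 ^ n / c) * Real.sqrt (c * r ^ n)) * Real.sqrt (μ.real A)
        = CR * Real.sqrt (C * 2 ^ n / c) * (Real.sqrt (c * r ^ n) * Real.sqrt (μ.real A)) := by
          ring
      _ ≤ _ := by gcongr
  -- third term
  have h3 : ‖∫ y in A, T n μ S3 ε y ∂μ - μ.real A • G n μ S x (2 * r)‖ ≤
      (n + 2) * 4 ^ (n + 1) * (C * 2 ^ n) * μ.real A := by
    have e1 : μ.real A • G n μ S x (2 * r) = ∫ _ in A, G n μ S x (2 * r) ∂μ := by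
      rw [setIntegral_const]
    rw [e1, ← integral_sub (hint S3 hS3fin) (integrableOn_const hAfin.ne)]
    refine (norm_setIntegral_le_of_norm_le_const hAfin ?_).trans le_rfl
    intro y hy
    exact far_difference hU hS hSm x y hr hε hεr hy
  rw [hsum]
  calc ‖∫ y in A, T n μ S2 ε y ∂μ + ∫ y in A, T n μ S3 ε y ∂μ -
        μ.real A • G n μ S x (2 * r)‖
      = ‖∫ y in A, T n μ S2 ε y ∂μ + (∫ y in A, T n μ S3 ε y ∂μ -
        μ.real A • G n μ S x (2 * r))‖ := by rw [add_sub_assoc]
    _ ≤ _ := (norm_add_le _ _).trans (by rw [add_mul]; exact add_le_add h2 h3)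

/-- Boundedness of all the truncated integrals on the scales between `δ r₀` and `r₀`, at every
point of the support in `B(x₀,r₀)`. -/
def Good (n : ℕ) (μ : Measure (E d)) (C4 δ : ℝ) (x0 : E d) (r0 : ℝ) : Prop :=
  ∀ x ∈ μ.support, x ∈ ball x0 r0 → ∀ s s' : ℝ, δ * r0 ≤ s → s ≤ s' → s' ≤ r0 →
    ‖∫ y in ball x s' \ ball x s, rieszKernel n (x - y) ∂μ‖ ≤ C4

theorem exists_good [IsLocallyFiniteMeasure μ] (hU : UB n μ C) (hL : LB n μ c D) {CR : ℝ}
    (hCR : 0 ≤ CR)
    (hR : ∀ f : E d → ℝ, MemLp f 2 μ → ∀ ε : ℝ, 0 < ε →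
      eLpNorm (rieszTrunc n μ ε f) 2 μ ≤ ENNReal.ofReal CR * eLpNorm f 2 μ) :
    ∃ C4 : ℝ, 0 < C4 ∧ ∀ xs ∈ μ.support, ∀ rs : ℝ, 0 < rs → ∀ δ : ℝ, 0 < δ → 
      ∃ x0 ∈ μ.support, ∃ r0 : ℝ, 0 < r0 ∧ r0 ≤ D ∧ ball x0 r0 ⊆ ball xs rs ∧
        Good n μ C4 δ x0 r0 := by
  have hC := hU.1
  obtain ⟨hc, hD, hlow⟩ := hL
  have hnull : μ μ.supportᶜ = 0 := Measure.measure_compl_support
  set C5 : ℝ := CR * Real.sqrt (C * 2 ^ n / c) + (n + 2) * 4 ^ (n + 1) * (C * 2 ^ n) with hC5
  have hC50 : 0 ≤ C5 := by positivity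
  refine ⟨2 * (C5 + 1), by positivity, ?_⟩
  intro xs hxs rs hrs δ hδ
  -- the function whose transform we consider is the indicator of `S`
  set S : Set (E d) := closedBall xs rs with hSdef
  have hS : μ S < ∞ := hU.closedBall_lt_top xs rs
  have hSm : MeasurableSet S := measurableSet_closedBall
  let εs : ℕ → ℝ := fun i => 1 / ((i : ℝ) + 1)
  have hεs : ∀ i, 0 < εs i := fun i => by positivity
  have hFmem : ∀ i, MemLp (T n μ S (εs i)) 2 μ := by
    intro i
    refine ⟨(stronglyMeasurable_T S (εs i)).aestronglyMeasurable, ?_⟩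
    refine (eLpNorm_T_le hR hSm hS (hεs i)).trans_lt ?_
    exact ENNReal.mul_lt_top ENNReal.ofReal_lt_top (ENNReal.rpow_lt_top_of_nonneg (by norm_num) hS.ne)
  let F : ℕ → Lp (E d) 2 μ := fun i => (hFmem i).toLp _
  have hFb : ∀ i, ‖F i‖ ≤ (ENNReal.ofReal CR * (μ S) ^ (1 / 2 : ℝ)).toReal := by
    intro i
    simp only [F, Lp.norm_toLp]
    refine ENNReal.toReal_mono ?_ (eLpNorm_T_le hR hSm hS (hεs i))
    exact (ENNReal.mul_lt_top ENNReal.ofReal_lt_top
      (ENNReal.rpow_lt_top_of_nonneg (by norm_num) hS.ne)).ne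
  obtain ⟨f, hf⟩ := exists_weak_limit F _ hFb (Ultrafilter.of atTop)
  have hWle : ((Ultrafilter.of atTop : Ultrafilter ℕ) : Filter ℕ) ≤ atTop := Ultrafilter.of_le _
  -- Lebesgue differentiation
  have hfloc : LocallyIntegrable f μ :=
    (Lp.memLp f).locallyIntegrable (by norm_num)
  have hleb := (Besicovitch.vitaliFamily μ).ae_tendsto_average_norm_sub hfloc
  have hpos : 0 < μ (ball xs rs) := by
    exact (Measure.mem_support_iff_forall xs).mp hxs _ (ball_mem_nhds xs hrs)
  obtain ⟨x0, hx0b, hx0s, hx0⟩ : ∃ x0, x0 ∈ ball xs rs ∧ x0 ∈ μ.support ∧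
      Tendsto (fun a => ⨍ y in a, ‖f y - f x0‖ ∂μ)
        ((Besicovitch.vitaliFamily μ).filterAt x0) (𝓝 0) := by
    by_contra hcon
    push Not at hcon
    have : μ (ball xs rs) = 0 := by
      have h1 : ∀ᵐ x ∂μ, x ∈ μ.support := by
        rw [ae_iff]; exact hnull
      have h2 : ∀ᵐ x ∂μ, x ∉ ball xs rs := by
        filter_upwards [h1, hleb] with x hx1 hx2 hx3
        exact hcon x hx3 hx1 hx2
      rw [ae_iff] at h2
      simp only [not_not] at h2
      exact h2
    exact hpos.ne' this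
  have hx0' := hx0.comp (Besicovitch.tendsto_filterAt μ x0)
  set cf : E d := f x0 with hcf
  -- choose `η`
  set η : ℝ := c * (δ / 4) ^ n / (C + 1) with hη
  have hη0 : 0 < η := by positivity
  have hev := (tendsto_order.mp hx0').2 η hη0
  obtain ⟨ρ0, hρ0, hρ⟩ := (mem_nhdsGT_iff_exists_Ioo_subset (a := (0 : ℝ))).mp hev
  rw [mem_Ioi] at hρ0
  rw [mem_ball] at hx0b
  -- the radius
  obtain ⟨r0, hr0, hr0D, hr0ρ, hr0s⟩ : ∃ r0 : ℝ, 0 < r0 ∧ r0 ≤ D ∧ 2 * r0 < ρ0 ∧
      dist x0 xs + 2 * r0 ≤ rs := by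
    refine ⟨min D (min (ρ0 / 4) ((rs - dist x0 xs) / 2)), ?_, ?_, ?_, ?_⟩
    · refine lt_min hD (lt_min (by positivity) ?_)
      linarith
    · exact min_le_left _ _
    · have h1 : min D (min (ρ0 / 4) ((rs - dist x0 xs) / 2)) ≤ ρ0 / 4 :=
        (min_le_right _ _).trans (min_le_left _ _)
      linarith
    · have h1 : min D (min (ρ0 / 4) ((rs - dist x0 xs) / 2)) ≤ (rs - dist x0 xs) / 2 :=
        (min_le_right _ _).trans (min_le_right _ _)
      linarith
  have hball2 : ball x0 (2 * r0) ⊆ S := by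
    intro w hw
    rw [mem_ball] at hw
    rw [hSdef, mem_closedBall]
    have := dist_triangle w x0 xs
    linarith
  refine ⟨x0, hx0s, r0, hr0, hr0D, ?_, ?_⟩
  · intro w hw
    rw [mem_ball] at hw ⊢
    have := dist_triangle w x0 xs
    linarith
  -- average smallness
  have havg : ∫ y in closedBall x0 (2 * r0), ‖f y - cf‖ ∂μ ≤ η * (C * (2 * r0) ^ n) := by
    have h1 : (⨍ y in closedBall x0 (2 * r0), ‖f y - cf‖ ∂μ) < η :=
      hρ (show 2 * r0 ∈ Ioo 0 ρ0 from ⟨by positivity, hr0ρ⟩)
    rw [setAverage_eq, smul_eq_mul] at h1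
    have hm : μ.real (closedBall x0 (2 * r0)) ≤ C * (2 * r0) ^ n := by
      have := hU.2 x0 (2 * r0) (by positivity)
      exact ENNReal.toReal_le_of_le_ofReal (by positivity) this
    have hm0 : 0 < μ.real (closedBall x0 (2 * r0)) := by
      rw [measureReal_def]
      refine ENNReal.toReal_pos ?_ (hU.closedBall_lt_top _ _).ne
      have := (Measure.mem_support_iff_forall x0).mp hx0s _
        (closedBall_mem_nhds x0 (show 0 < 2 * r0 by positivity))
      exact this.ne'
    have h2 : ∫ y in closedBall x0 (2 * r0), ‖f y - cf‖ ∂μ <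
        η * μ.real (closedBall x0 (2 * r0)) := by
      rw [inv_mul_eq_div, div_lt_iff₀ hm0] at h1
      exact h1
    exact h2.le.trans (by gcongr)
  -- main pointwise estimate
  have key : ∀ x ∈ μ.support, x ∈ ball x0 r0 → ∀ r : ℝ, δ * r0 / 2 ≤ r → r ≤ r0 / 2 →
      ‖cf - G n μ S x (2 * r)‖ ≤ C5 + 1 := by
    intro x hxs' hx r hr1 hr2
    have hr : 0 < r := lt_of_lt_of_le (by positivity) hr1
    rw [mem_ball] at hx
    have hsubA : ball x (2 * r) ⊆ ball x0 (2 * r0) := by
      intro w hw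
      rw [mem_ball] at hw ⊢
      have := dist_triangle w x x0
      linarith
    have hlowx : c * r ^ n ≤ μ.real (ball x r) := by
      have h1 := hlow x hxs' r hr (by linarith)
      rw [measureReal_def]
      exact (ENNReal.ofReal_le_iff_le_toReal (hU.ball_lt_top x r).ne).mp h1
    have hAfin : μ (ball x r) < ∞ := hU.ball_lt_top x r
    have hA0 : 0 < μ.real (ball x r) := lt_of_lt_of_le (by positivity) hlowx
    set A := ball x r with hAdef
    -- weak limit
    have hz : ‖∫ y in A, f y ∂μ - μ.real A • G n μ S x (2 * r)‖ ≤ C5 * μ.real A := by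
      set z : E d := ∫ y in A, f y ∂μ - μ.real A • G n μ S x (2 * r) with hzdef
      have h1 := hf (indicatorConstLp 2 measurableSet_ball hAfin.ne z)
      simp only [L2.inner_indicatorConstLp_eq_inner_setIntegral] at h1
      have h2 : Tendsto (fun i => inner ℝ z (∫ y in A, (F i) y ∂μ -
          μ.real A • G n μ S x (2 * r))) (Ultrafilter.of atTop : Ultrafilter ℕ)
          (𝓝 (inner ℝ z z)) := by
        have h3 := h1.sub (tendsto_const_nhds
          (x := inner ℝ z (μ.real A • G n μ S x (2 * r))))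
        simp only [← inner_sub_right] at h3
        exact h3
      have h4 : ∀ᶠ i in ((Ultrafilter.of atTop : Ultrafilter ℕ) : Filter ℕ),
          inner ℝ z (∫ y in A, (F i) y ∂μ - μ.real A • G n μ S x (2 * r)) ≤
            ‖z‖ * (C5 * μ.real A) := by
        have h5 : ∀ᶠ i : ℕ in atTop, εs i < r := by
          have := tendsto_one_div_add_atTop_nhds_zero_nat (𝕜 := ℝ)
          exact (tendsto_order.mp this).2 r hr
        refine (Filter.Eventually.filter_mono hWle h5).mono ?_
        intro i hi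
        refine (real_inner_le_norm _ _).trans ?_
        gcongr
        have h6 : ∫ y in A, (F i) y ∂μ = ∫ y in A, T n μ S (εs i) y ∂μ := by
          refine setIntegral_congr_ae measurableSet_ball ?_
          filter_upwards [(hFmem i).coeFn_toLp] with y hy _
          exact hy
        rw [h6]
        exact average_estimate hU hc hCR hR hS hSm x hr (hεs i) hi
          (hsubA.trans hball2) hlowx
      have h7 := le_of_tendsto h2 h4
      rw [real_inner_self_eq_norm_mul_norm] at h7
      rcases (norm_nonneg z).eq_or_lt with h8 | h8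
      · rw [← h8]; positivity
      · exact le_of_mul_le_mul_left h7 h8
    -- closeness of the average of `f` to `cf`
    have hfint : IntegrableOn f (closedBall x0 (2 * r0)) μ :=
      hfloc.integrableOn_isCompact (isCompact_closedBall _ _)
    have hAsub : A ⊆ closedBall x0 (2 * r0) := by
      intro w hw
      rw [hAdef, mem_ball] at hw
      rw [mem_closedBall]
      have := dist_triangle w x x0
      linarith
    have hcl : ‖∫ y in A, f y ∂μ - μ.real A • cf‖ ≤ μ.real A := by
      have e1 : μ.real A • cf = ∫ _ in A, cf ∂μ := by rw [setIntegral_const]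
      rw [e1, ← integral_sub (hfint.mono_set hAsub) (integrableOn_const hAfin.ne)]
      refine (norm_integral_le_integral_norm _).trans ?_
      have h1 : ∫ y in A, ‖f y - cf‖ ∂μ ≤ ∫ y in closedBall x0 (2 * r0), ‖f y - cf‖ ∂μ := by
        refine setIntegral_mono_set ?_ ?_ ?_
        · exact (hfint.sub (integrableOn_const (hU.closedBall_lt_top _ _).ne)).norm
        · exact Eventually.of_forall fun y => norm_nonneg _
        · exact hAsub.eventuallyLE
      refine h1.trans (havg.trans ?_)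
      refine le_trans ?_ hlowx
      have h2 : c * (δ * r0 / 2) ^ n ≤ c * r ^ n := by gcongr
      refine le_trans ?_ h2
      rw [hη]
      have h3 : c * (δ / 4) ^ n / (C + 1) * (C * (2 * r0) ^ n) =
          (C / (C + 1)) * (c * (δ * r0 / 2) ^ n) := by
        have e4 : (δ * r0 / 2) ^ n = (δ / 4) ^ n * (2 * r0) ^ n := by
          rw [← mul_pow]; congr 1; ring
        rw [e4]
        generalize (δ / 4) ^ n = a
        generalize (2 * r0) ^ n = b
        field_simp
      rw [h3]
      have h4 : C / (C + 1) ≤ 1 := by rw [div_le_one (by positivity)]; linarith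
      have h5 : 0 ≤ c * (δ * r0 / 2) ^ n := by positivity
      nlinarith only [h4, h5]
    have hfinal : ‖μ.real A • (cf - G n μ S x (2 * r))‖ ≤ (C5 + 1) * μ.real A := by
      have e1 : μ.real A • (cf - G n μ S x (2 * r)) =
          (∫ y in A, f y ∂μ - μ.real A • G n μ S x (2 * r)) -
            (∫ y in A, f y ∂μ - μ.real A • cf) := by
        rw [smul_sub]; abel
      rw [e1]
      refine (norm_sub_le _ _).trans ?_
      linarith
    rw [norm_smul, Real.norm_eq_abs, abs_of_pos hA0, mul_comm] at hfinal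
    exact le_of_mul_le_mul_right hfinal hA0
  intro x hxs' hx s s' hs1 hs2 hs3
  have hs0 : 0 < s := lt_of_lt_of_le (by positivity) hs1
  have hsub' : ball x s' ⊆ S := by
    refine Subset.trans ?_ hball2
    intro w hw
    rw [mem_ball] at hw hx ⊢
    have := dist_triangle w x x0
    linarith
  rw [← G_sub_G hS hSm x hs0 hs2 hsub']
  have k1 := key x hxs' hx (s / 2) (by linarith) (by linarith)
  have k2 := key x hxs' hx (s' / 2) (by linarith) (by linarith)
  have e1 : 2 * (s / 2) = s := by ring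
  have e2 : 2 * (s' / 2) = s' := by ring
  rw [e1] at k1
  rw [e2] at k2
  have e3 : G n μ S x s - G n μ S x s' = (cf - G n μ S x s') - (cf - G n μ S x s) := by abel
  rw [e3]
  refine (norm_sub_le _ _).trans ?_
  linarith

end Vale.Agent.P120

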