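import Vale.Agent.Lib.P120.Induction

open MeasureTheory Filter Set Metric Module
open scoped Topology ENNReal NNReal RealInnerProductSpace

namespace Vale.Agent.P120

variable {d n : ℕ} {μ : Measure (E d)} {C c D : ℝ}

/-- An AD-regular set of dimension `n` is not close to a plane of dimension `< n`. -/
lemma not_flat_low (hU : UB n μ C) (hL : LB n μ c D) (hn : 1 ≤ n) :
    ∃ θ : ℝ, 0 < θ ∧ θ ≤ 1 ∧ ∀ x0 ∈ μ.support, ∀ r0 : ℝ, 0 < r0 → r0 ≤ D →
      ∀ V : Submodule ℝ (E d), finrank ℝ V < n → ¬ Flat μ V θ x0 r0 := by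
  have hUB := hU
  obtain ⟨hC, hup⟩ := hU
  obtain ⟨hc, hD, hlow⟩ := hL
  set Q : ℝ := 9 ^ n * C * (n + 2) ^ n with hQ
  have hQ0 : 0 < Q := by positivity
  set θ : ℝ := min 1 (c / (2 * Q)) with hθdef
  have hθ : 0 < θ := lt_min one_pos (by positivity)
  have hθ1 : θ ≤ 1 := min_le_left _ _
  refine ⟨θ, hθ, hθ1, ?_⟩
  intro x0 hx0 r0 hr0 hr0D V hV hflat
  set j := finrank ℝ V with hj
  let b := stdOrthonormalBasis ℝ V
  set M : ℕ := ⌈2 / θ⌉₊ + 1 with hM
  have hMup : (M : ℝ) ≤ 2 / θ + 2 := by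
    rw [hM]; push_cast
    have := (Nat.ceil_lt_add_one (show (0:ℝ) ≤ 2 / θ by positivity)).le
    linarith
  set a : ℝ := θ * r0 with ha
  have ha0 : 0 < a := by positivity
  have hn' : ∀ v : V, ‖(v : E d)‖ = ‖v‖ := fun v => rfl
  let vec : (Fin j → Fin (2 * M + 1)) → EuclideanSpace ℝ (Fin j) :=
    fun m => WithLp.toLp 2 (fun i => ((m i : ℕ) : ℝ) - M)
  let z : (Fin j → Fin (2 * M + 1)) → E d := fun m => a • ((b.repr.symm (vec m) : V) : E d)
  have hcover : ∀ y ∈ μ.support, y ∈ ball x0 r0 →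
      ∃ m, y ∈ closedBall (x0 + z m) ((n + 2) * a) := by
    intro y hy hyb
    obtain ⟨v, hvV, hv⟩ := hflat y hy hyb
    rw [mem_ball, dist_eq_norm] at hyb
    have hvn : ‖v‖ ≤ 2 * r0 := by
      have h1 : v = (y - x0) - (y - x0 - v) := by abel
      rw [h1]
      refine (norm_sub_le _ _).trans ?_
      nlinarith only [hθ1, hr0, hyb, hv]
    let w : EuclideanSpace ℝ (Fin j) := b.repr ⟨v, hvV⟩
    have hwn : ‖w‖ ≤ 2 * r0 := by
      simp only [w, LinearIsometryEquiv.norm_map]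
      exact hvn
    have hwi : ∀ i, |w i| ≤ 2 * r0 := fun i => by
      have := PiLp.norm_apply_le w i
      rw [Real.norm_eq_abs] at this
      exact this.trans hwn
    -- integer coordinates
    have hfl : ∀ i, 0 ≤ ⌊w i / a⌋ + (M : ℤ) ∧ ⌊w i / a⌋ + (M : ℤ) < 2 * M + 1 := by
      intro i
      have h1 := abs_le.mp (hwi i)
      have h2 : |w i / a| ≤ 2 / θ := by
        rw [abs_div, abs_of_pos ha0, div_le_div_iff₀ ha0 hθ, ha]
        have := hwi i
        nlinarith only [hθ, this]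
      have h3 := abs_le.mp h2
      have h4 : (2 / θ : ℝ) ≤ (M : ℝ) - 1 := by
        rw [hM]; push_cast
        have := Nat.le_ceil (2 / θ)
        linarith
      have h5 : (⌊w i / a⌋ : ℝ) ≤ w i / a := Int.floor_le _
      have h6 : w i / a < (⌊w i / a⌋ : ℝ) + 1 := Int.lt_floor_add_one _
      constructor
      · have : (-1 : ℝ) < (⌊w i / a⌋ : ℝ) + (M : ℝ) := by linarith
        have h7 : ((-1 : ℤ) : ℝ) < ((⌊w i / a⌋ + (M : ℤ) : ℤ) : ℝ) := by push_cast; linarith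
        have h8 : (-1 : ℤ) < ⌊w i / a⌋ + (M : ℤ) := by exact_mod_cast h7
        omega
      · have h7 : ((⌊w i / a⌋ + (M : ℤ) : ℤ) : ℝ) < ((2 * M + 1 : ℤ) : ℝ) := by push_cast; linarith
        exact_mod_cast h7
    let m : Fin j → Fin (2 * M + 1) := fun i => ⟨(⌊w i / a⌋ + (M : ℤ)).toNat, by
      have h1 := hfl i
      omega⟩
    have hm : ∀ i, ((m i : ℕ) : ℝ) - M = (⌊w i / a⌋ : ℝ) := by
      intro i
      have h1 := (hfl i).1
      have h2 : (((⌊w i / a⌋ + (M : ℤ)).toNat : ℕ) : ℤ) = ⌊w i / a⌋ + (M : ℤ) :=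
        Int.toNat_of_nonneg h1
      have h3 : (((⌊w i / a⌋ + (M : ℤ)).toNat : ℕ) : ℝ) = (⌊w i / a⌋ : ℝ) + M := by
        have h4 := congrArg (fun t : ℤ => (t : ℝ)) h2
        simp only [Int.cast_natCast, Int.cast_add] at h4
        exact h4
      simp only [m]
      rw [h3]; ring
    refine ⟨m, ?_⟩
    rw [mem_closedBall, dist_eq_norm]
    have hdiff : ‖w - a • vec m‖ ≤ (n : ℝ) * a := by
      rw [EuclideanSpace.norm_eq]
      apply Real.sqrt_le_iff.mpr
      refine ⟨by positivity, ?_⟩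
      have h1 : ∀ i ∈ (Finset.univ : Finset (Fin j)), ‖(w - a • vec m) i‖ ^ 2 ≤ a ^ 2 := by
        intro i _
        have h2 : (w - a • vec m) i = w i - a * (⌊w i / a⌋ : ℝ) := by
          simp only [PiLp.sub_apply, PiLp.smul_apply, smul_eq_mul, vec, hm]
        rw [h2]
        have h5 : (⌊w i / a⌋ : ℝ) ≤ w i / a := Int.floor_le _
        have h6 : w i / a < (⌊w i / a⌋ : ℝ) + 1 := Int.lt_floor_add_one _
        rw [le_div_iff₀ ha0] at h5
        rw [div_lt_iff₀ ha0] at h6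
        rw [Real.norm_eq_abs, sq_abs]
        have h7 : 0 ≤ w i - a * (⌊w i / a⌋ : ℝ) := by linarith
        have h8 : w i - a * (⌊w i / a⌋ : ℝ) ≤ a := by linarith
        gcongr
      refine (Finset.sum_le_sum h1).trans ?_
      simp only [Finset.sum_const, Finset.card_univ, Fintype.card_fin, nsmul_eq_mul]
      have h2 : (j : ℝ) ≤ (n : ℝ) ^ 2 := by
        have h3 : (j : ℝ) ≤ n := by exact_mod_cast hV.le
        have h4 : (1 : ℝ) ≤ n := by exact_mod_cast hn
        nlinarith only [h3, h4]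
      calc (j : ℝ) * a ^ 2 ≤ (n : ℝ) ^ 2 * a ^ 2 :=
            mul_le_mul_of_nonneg_right h2 (by positivity)
        _ = ((n : ℝ) * a) ^ 2 := by ring
    have hvz : ‖v - z m‖ ≤ (n : ℝ) * a := by
      have h1 : v - z m = ((b.repr.symm (w - a • vec m) : V) : E d) := by
        simp only [z, w, map_sub, map_smul, LinearIsometryEquiv.symm_apply_apply,
          Submodule.coe_sub, Submodule.coe_smul]
      rw [h1, hn', LinearIsometryEquiv.norm_map]
      exact hdiff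
    have hsplit : y - (x0 + z m) = (y - x0 - v) + (v - z m) := by abel
    rw [hsplit]
    refine (norm_add_le _ _).trans ?_
    rw [← ha] at hv
    linarith
  have hmeas : μ (ball x0 r0) ≤ ∑ m : Fin j → Fin (2 * M + 1),
      μ (closedBall (x0 + z m) ((n + 2) * a)) := by
    have h1 : μ (ball x0 r0) ≤ μ (⋃ m, closedBall (x0 + z m) ((n + 2) * a)) := by
      have h2 : ball x0 r0 ⊆ (⋃ m, closedBall (x0 + z m) ((n + 2) * a)) ∪ μ.supportᶜ := by
        intro y hy
        by_cases hyS : y ∈ μ.support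
        · obtain ⟨m, hm⟩ := hcover y hyS hy
          exact Or.inl (mem_iUnion.mpr ⟨m, hm⟩)
        · exact Or.inr hyS
      refine (measure_mono h2).trans ((measure_union_le _ _).trans ?_)
      rw [Measure.measure_compl_support, add_zero]
    refine h1.trans ?_
    have h3 := measure_iUnion_le (μ := μ) (fun m => closedBall (x0 + z m) ((n + 2) * a))
    rw [tsum_fintype] at h3
    exact h3
  have hcount : ENNReal.ofReal (c * r0 ^ n) ≤
      ENNReal.ofReal ((2 * M + 1 : ℝ) ^ j * (C * ((n + 2) * a) ^ n)) := by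
    refine (hlow x0 hx0 r0 hr0 hr0D).trans (hmeas.trans ?_)
    refine (Finset.sum_le_sum fun m _ => hup _ _ (by positivity)).trans (le_of_eq ?_)
    rw [Finset.sum_const, Finset.card_univ, Fintype.card_fun, Fintype.card_fin, Fintype.card_fin,
      nsmul_eq_mul, show (2 * (M : ℝ) + 1) = ((2 * M + 1 : ℕ) : ℝ) by push_cast; ring,
      ENNReal.ofReal_mul (p := ((2 * M + 1 : ℕ) : ℝ) ^ j) (by positivity),
      ENNReal.ofReal_pow (p := ((2 * M + 1 : ℕ) : ℝ)) (by positivity), ENNReal.ofReal_natCast,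
      Nat.cast_pow]
  rw [ENNReal.ofReal_le_ofReal_iff (by positivity)] at hcount
  have h1 : (2 * M + 1 : ℝ) ≤ 9 / θ := by
    have h2 : (1 : ℝ) ≤ 1 / θ := by rw [le_div_iff₀ hθ]; linarith
    have h3 : (9 : ℝ) / θ = 4 / θ + 5 * (1 / θ) := by ring
    rw [h3]
    have h4 : 2 * (M : ℝ) ≤ 2 * (2 / θ + 2) := by linarith
    have h5 : 2 * (2 / θ + 2) = 4 / θ + 4 := by ring
    linarith
  have h2 : (2 * M + 1 : ℝ) ^ j ≤ (9 / θ) ^ (n - 1) := by
    calc (2 * M + 1 : ℝ) ^ j ≤ (9 / θ) ^ j := by gcongr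
      _ ≤ (9 / θ) ^ (n - 1) := by
          apply pow_le_pow_right₀
          · rw [le_div_iff₀ hθ]; linarith
          · omega
  have h3 : c * r0 ^ n ≤ (9 / θ) ^ (n - 1) * (C * ((n + 2) * a) ^ n) :=
    hcount.trans (by gcongr)
  have h4 : (9 / θ) ^ (n - 1) * (C * ((n + 2) * a) ^ n) ≤ Q * θ * r0 ^ n := by
    have e1 : (9 / θ) ^ (n - 1) = 9 ^ (n - 1) * (θ ^ (n - 1))⁻¹ := by
      rw [div_pow, div_eq_mul_inv]
    have e2 : θ ^ n = θ ^ (n - 1) * θ := by
      rw [← pow_succ]; congr 1; omega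
    rw [e1, ha, hQ, mul_pow, mul_pow, e2]
    have h9 : (9 : ℝ) ^ (n - 1) ≤ 9 ^ n := pow_le_pow_right₀ (by norm_num) (Nat.sub_le _ _)
    have hθn : θ ^ (n - 1) ≠ 0 := by positivity
    calc 9 ^ (n - 1) * (θ ^ (n - 1))⁻¹ * (C * ((↑n + 2) ^ n * (θ ^ (n - 1) * θ * r0 ^ n)))
        = 9 ^ (n - 1) * ((θ ^ (n - 1))⁻¹ * θ ^ (n - 1)) * (C * (↑n + 2) ^ n * θ * r0 ^ n) := by
          ring
      _ = 9 ^ (n - 1) * (C * (↑n + 2) ^ n * θ * r0 ^ n) := by
          rw [inv_mul_cancel₀ hθn, mul_one]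
      _ ≤ 9 ^ n * (C * (↑n + 2) ^ n * θ * r0 ^ n) := by gcongr
      _ = 9 ^ n * C * (↑n + 2) ^ n * θ * r0 ^ n := by ring
  have h5 : Q * θ ≤ c / 2 := by
    have : θ ≤ c / (2 * Q) := min_le_right _ _
    calc Q * θ ≤ Q * (c / (2 * Q)) := by gcongr
      _ = c / 2 := by field_simp
  have hr : 0 < r0 ^ n := by positivity
  nlinarith only [hc, h3, h4, h5, hr]

end Vale.Agent.P120
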