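import Vale.Agent.Lib.P120.Bilateral

open MeasureTheory Filter Set Metric Module
open scoped Topology ENNReal NNReal RealInnerProductSpace

namespace Vale.Agent.P120

variable {d n : ℕ} {μ : Measure (E d)}

/-- For an `n`-AD-regular measure with bounded Riesz transform, every ball centred on the support
contains balls in which the support is bilaterally arbitrarily close to an `n`-plane. -/
theorem exists_flat_ball [IsLocallyFiniteMeasure μ] (hn : 1 ≤ n) (hnd : n ≤ d)
    (hAD : ADRegular n μ) (hR : RieszBounded n μ) (hS : μ.support.Nontrivial)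
    (θ : ℝ) (hθ : 0 < θ) (xs : E d) (hxs : xs ∈ μ.support) (rs : ℝ) (hrs : 0 < rs) :
    ∃ x0 ∈ μ.support, ∃ r0 : ℝ, 0 < r0 ∧ LeDiam r0 μ ∧ ball x0 r0 ⊆ ball xs rs ∧
      ∃ V : Submodule ℝ (E d), finrank ℝ V = n ∧ BFlat μ V θ x0 r0 := by
  obtain ⟨C, c, D, hU, hL, hD⟩ := exists_bounds hAD hS
  obtain ⟨CR, hCR⟩ := hR
  obtain ⟨C4, hC4, hgood⟩ := exists_good (CR := max CR 0) hU hL (le_max_right _ _)
    (fun f hf ε hε => ((hCR f hf ε hε).2).trans (by gcongr; exact le_max_left _ _))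
  obtain ⟨x0, hx0, r0, hr0, hr0D, hsub, hV⟩ := exists_bflat hU hL hn hnd hgood θ hθ xs hxs rs hrs
  exact ⟨x0, hx0, r0, hr0, (ENNReal.ofReal_le_ofReal hr0D).trans hD, hsub, hV⟩

end Vale.Agent.P120
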