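import Mathlib.MeasureTheory.Covering.Vitali
import Vale.Agent.Lib.P120.Homog

open MeasureTheory Filter Set Metric Module
open scoped Topology ENNReal NNReal RealInnerProductSpace

namespace Vale.Agent.P120

variable {d n : ℕ} {μ : Measure (E d)} {C c D : ℝ}

/-- An expanding map of `A` into the support increases the measure. -/
lemma measure_le_image [IsLocallyFiniteMeasure μ] (hU : UB n μ C) (hL : LB n μ c D)
    {A : Set (E d)} {ψ : E d → E d} {ρ : ℝ} (hρ : 0 < ρ) (hψ : MapsTo ψ A μ.support)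
    (hexp : ∀ a ∈ A, ∀ b ∈ A, ρ * ‖a - b‖ ≤ ‖ψ a - ψ b‖) :
    μ A ≤ ENNReal.ofReal (C * 10 ^ n / c / ρ ^ n) * μ (ψ '' A) := by
  obtain ⟨hC, hup⟩ := hU
  obtain ⟨hc, hD, hlow⟩ := hL
  set K : ℝ := C * 10 ^ n / c / ρ ^ n with hK
  have hK0 : 0 < K := by positivity
  have key : ∀ U : Set (E d), IsOpen U → ψ '' A ⊆ U → μ A ≤ ENNReal.ofReal K * μ U := by
    intro U hUo hSU
    have hrad : ∀ x : E d, ∃ r : ℝ, x ∈ ψ '' A → 0 < r ∧ r ≤ D ∧ closedBall x r ⊆ U := by
      intro x
      by_cases hx : x ∈ ψ '' A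
      · obtain ⟨ε, hε, hεU⟩ := Metric.isOpen_iff.mp hUo x (hSU hx)
        refine ⟨min (ε / 2) D, fun _ => ⟨lt_min (by positivity) hD, min_le_right _ _, ?_⟩⟩
        refine (closedBall_subset_ball ?_).trans hεU
        exact (min_le_left _ _).trans_lt (by linarith)
      · exact ⟨0, fun h => absurd h hx⟩
    choose r hr using hrad
    obtain ⟨u, huS, hdisj, hcov⟩ := Vitali.exists_disjoint_subfamily_covering_enlargement_closedBall
      (ψ '' A) (fun x => x) r D (fun x hx => (hr x hx).2.1) 5 (by norm_num)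
    have hcount : u.Countable := hdisj.countable_of_nonempty_interior fun x hx => by
      have h1 := (hr x (huS hx)).1
      exact ⟨x, ball_subset_interior_closedBall (mem_ball_self h1)⟩
    have hsub : A ⊆ ⋃ b ∈ u, (A ∩ ψ ⁻¹' closedBall b (5 * r b)) := by
      intro a ha
      obtain ⟨b, hb, hab⟩ := hcov (ψ a) ⟨a, ha, rfl⟩
      refine mem_iUnion₂.mpr ⟨b, hb, ha, ?_⟩
      exact hab (mem_closedBall_self (hr (ψ a) ⟨a, ha, rfl⟩).1.le)
    have hterm : ∀ b ∈ u, μ (A ∩ ψ ⁻¹' closedBall b (5 * r b)) ≤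
        ENNReal.ofReal K * μ (closedBall b (r b)) := by
      intro b hb
      have hbS := huS hb
      obtain ⟨hr0, hrD, -⟩ := hr b hbS
      have hbsupp : b ∈ μ.support := by
        obtain ⟨a, ha, rfl⟩ := hbS
        exact hψ ha
      rcases (A ∩ ψ ⁻¹' closedBall b (5 * r b)).eq_empty_or_nonempty with he | ⟨a, haA, hab⟩
      · rw [he, measure_empty]; exact zero_le
      · have hsub' : A ∩ ψ ⁻¹' closedBall b (5 * r b) ⊆ closedBall a (10 * r b / ρ) := by
          rintro a' ⟨ha'A, ha'b⟩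
          rw [mem_preimage, mem_closedBall, dist_eq_norm] at hab ha'b
          rw [mem_closedBall, dist_eq_norm, le_div_iff₀ hρ]
          have h1 := hexp a' ha'A a haA
          have h2 : ‖ψ a' - ψ a‖ ≤ 10 * r b := by
            have h3 : ψ a' - ψ a = (ψ a' - b) - (ψ a - b) := by abel
            rw [h3]
            refine (norm_sub_le _ _).trans ?_
            linarith
          rw [mul_comm]
          exact h1.trans h2
        refine (measure_mono hsub').trans ((hup a _ (by positivity)).trans ?_)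
        have h4 : C * (10 * r b / ρ) ^ n = K * (c * r b ^ n) := by
          rw [hK, div_pow, mul_pow]
          field_simp
        rw [h4, ENNReal.ofReal_mul hK0.le]
        gcongr
        exact (hlow b hbsupp (r b) hr0 hrD).trans (measure_mono ball_subset_closedBall)
    calc μ A ≤ μ (⋃ b ∈ u, (A ∩ ψ ⁻¹' closedBall b (5 * r b))) := measure_mono hsub
      _ ≤ ∑' b : u, μ (A ∩ ψ ⁻¹' closedBall (b : E d) (5 * r b)) := measure_biUnion_le μ hcount _
      _ ≤ ∑' b : u, ENNReal.ofReal K * μ (closedBall (b : E d) (r b)) :=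
          ENNReal.tsum_le_tsum fun b => hterm b b.2
      _ = ENNReal.ofReal K * ∑' b : u, μ (closedBall (b : E d) (r b)) := ENNReal.tsum_mul_left
      _ = ENNReal.ofReal K * μ (⋃ b ∈ u, closedBall b (r b)) := by
          rw [measure_biUnion hcount hdisj fun b _ => measurableSet_closedBall]
      _ ≤ ENNReal.ofReal K * μ U := by
          gcongr
          exact iUnion₂_subset fun b hb => (hr b (huS hb)).2.2
  refine ENNReal.le_of_forall_pos_le_add ?_
  intro ε hε _
  obtain ⟨U, hSU, hUo, hUμ⟩ := Set.exists_isOpen_le_add (ψ '' A) μ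
    (ε := ENNReal.ofReal ((ε : ℝ) / K)) (by
      rw [Ne, ENNReal.ofReal_eq_zero, not_le]
      have : (0 : ℝ) < ε := by exact_mod_cast hε
      positivity)
  refine (key U hUo hSU).trans ?_
  calc ENNReal.ofReal K * μ U ≤ ENNReal.ofReal K * (μ (ψ '' A) + ENNReal.ofReal ((ε : ℝ) / K)) := by
        gcongr
    _ = ENNReal.ofReal K * μ (ψ '' A) + ENNReal.ofReal K * ENNReal.ofReal ((ε : ℝ) / K) := by
        rw [mul_add]
    _ = ENNReal.ofReal K * μ (ψ '' A) + ε := by
        rw [← ENNReal.ofReal_mul hK0.le, mul_div_cancel₀ _ hK0.ne', ENNReal.ofReal_coe_nnreal]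

/-- A set is quasi-self-similar if for some `M` every ball `B(x,r)` with `x ∈ S`,
`0 < r ≤ diam S`, contains a copy `φ(S) ⊆ S` of the whole set with
`r |a - b| / M ≤ |φ(a) - φ(b)| ≤ M r |a - b|`. -/
def QuasiSelfSimilar (S : Set (E d)) : Prop :=
  ∃ M : ℝ, 0 < M ∧ ∀ x ∈ S, ∀ r : ℝ, 0 < r → ENNReal.ofReal r ≤ ediam S →
    ∃ φ : E d → E d, MapsTo φ S (S ∩ ball x r) ∧
      ∀ a ∈ S, ∀ b ∈ S, r * ‖a - b‖ ≤ M * ‖φ a - φ b‖ ∧ ‖φ a - φ b‖ ≤ M * r * ‖a - b‖

theorem QuasiSelfSimilar.homogeneous [IsLocallyFiniteMeasure μ] (hAD : ADRegular n μ)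
    (hQ : QuasiSelfSimilar μ.support) : Homogeneous n μ := by
  by_cases hS : μ.support.Nontrivial
  swap
  · refine ⟨1, one_pos, 1, one_pos, ?_⟩
    intro x hx r hr hrD
    exfalso
    have h1 : ediam μ.support = 0 := by
      by_contra h
      exact hS (Metric.ediam_pos_iff.mp (pos_iff_ne_zero.mpr h))
    rw [LeDiam, h1, nonpos_iff_eq_zero, ENNReal.ofReal_eq_zero] at hrD
    linarith
  obtain ⟨C, c, D, hU, hL, hDd⟩ := exists_bounds hAD hS
  obtain ⟨M, hM, hQ⟩ := hQ
  have hC := hU.1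
  have hc := hL.1
  have hD := hL.2.1
  obtain ⟨xs, hxs⟩ := hS.nonempty
  set m0 : ℝ := c * D ^ n with hm0
  have hm00 : 0 < m0 := by positivity
  have hmeas : ENNReal.ofReal m0 ≤ μ μ.support := by
    refine (hL.2.2 xs hxs D hD le_rfl).trans ?_
    have h1 : μ (ball xs D) ≤ μ (μ.support ∪ μ.supportᶜ) :=
      measure_mono (by rw [union_compl_self]; exact subset_univ _)
    refine h1.trans ((measure_union_le _ _).trans ?_)
    rw [Measure.measure_compl_support, add_zero]
  set K0 : ℝ := C * 10 ^ n / c * M ^ n with hK0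
  have hK00 : 0 < K0 := by positivity
  refine ⟨m0 / K0, by positivity, M ^ 2, by positivity, ?_⟩
  intro x hx r hr hrD
  obtain ⟨φ, hφ, hφM⟩ := hQ x hx r hr hrD
  refine ⟨φ '' μ.support, ?_, ?_, ?_⟩
  · rintro _ ⟨a, ha, rfl⟩
    exact hφ ha
  · have h1 := measure_le_image hU hL (A := μ.support) (ψ := φ) (ρ := r / M) (by positivity)
      (fun a ha => (hφ ha).1) (by
        intro a ha b hb
        rw [div_mul_eq_mul_div, div_le_iff₀ hM, mul_comm _ M]
        exact (hφM a ha b hb).1)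
    have h2 : C * 10 ^ n / c / (r / M) ^ n = K0 / r ^ n := by
      rw [hK0, div_pow]; field_simp
    rw [h2] at h1
    have h3 := hmeas.trans h1
    have hpos : 0 < K0 / r ^ n := by positivity
    have h4 : ENNReal.ofReal (m0 / K0 * r ^ n) = ENNReal.ofReal m0 / ENNReal.ofReal (K0 / r ^ n) := by
      rw [← ENNReal.ofReal_div_of_pos hpos]
      congr 1
      field_simp
    rw [h4]
    exact ENNReal.div_le_of_le_mul' h3
  · intro y hy s hs hsD
    obtain ⟨φ', hφ', hφ'M⟩ := hQ y hy s hs hsD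
    have : Nonempty (E d) := ⟨x⟩
    have hinj : InjOn φ μ.support := by
      intro a ha b hb hab
      have h1 := (hφM a ha b hb).1
      rw [hab, sub_self, norm_zero, mul_zero] at h1
      have h2 : ‖a - b‖ ≤ 0 := by
        by_contra hcon
        rw [not_le] at hcon
        have := mul_pos hr hcon
        linarith
      exact sub_eq_zero.mp (norm_le_zero_iff.mp h2)
    have hleft : ∀ a ∈ μ.support, Function.invFunOn φ μ.support (φ a) = a :=
      fun a ha => hinj.leftInvOn_invFunOn ha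
    refine ⟨fun z => φ' (Function.invFunOn φ μ.support z), ?_, ?_⟩
    · rintro _ ⟨a, ha, rfl⟩
      simp only [hleft a ha]
      exact hφ' ha
    · rintro _ ⟨a, ha, rfl⟩ _ ⟨b, hb, rfl⟩
      simp only [hleft a ha, hleft b hb]
      have h1 := (hφM a ha b hb).2
      have h2 := (hφ'M a ha b hb).1
      calc s / r * ‖φ a - φ b‖ ≤ s / r * (M * r * ‖a - b‖) := by gcongr
        _ = M * (s * ‖a - b‖) := by field_simp
        _ ≤ M * (M * ‖φ' a - φ' b‖) := by gcongr
        _ = M ^ 2 * ‖φ' a - φ' b‖ := by ring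

/-- `S` is a self-similar set: `S = f_0(S) ∪ ... ∪ f_{m-1}(S)` for contracting similarities
`f_i` of `ℝ^d`. -/
def SelfSimilar (S : Set (E d)) : Prop :=
  ∃ (m : ℕ) (f : Fin m → E d → E d) (ρ : Fin m → ℝ), (∀ i, 0 < ρ i ∧ ρ i < 1) ∧
    (∀ i a b, ‖f i a - f i b‖ = ρ i * ‖a - b‖) ∧ S = ⋃ i, f i '' S

theorem SelfSimilar.quasiSelfSimilar {S : Set (E d)} (hS : SelfSimilar S)
    (hb : Bornology.IsBounded S) : QuasiSelfSimilar S := by
  obtain ⟨m, f, ρ, hρ, hf, hSf⟩ := hS
  by_cases hnt : S.Nontrivial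
  swap
  · refine ⟨1, one_pos, ?_⟩
    intro x hx r hr hrD
    exfalso
    have h1 : ediam S = 0 := by
      by_contra h
      exact hnt (Metric.ediam_pos_iff.mp (pos_iff_ne_zero.mpr h))
    rw [h1, nonpos_iff_eq_zero, ENNReal.ofReal_eq_zero] at hrD
    linarith
  set D0 : ℝ := diam S with hD0
  have hD00 : 0 < D0 := by
    obtain ⟨a, ha, b, hb', hab⟩ := hnt
    exact lt_of_lt_of_le (dist_pos.mpr hab) (dist_le_diam_of_mem hb ha hb')
  have hdiam : ∀ a ∈ S, ∀ b ∈ S, ‖a - b‖ ≤ D0 := by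
    intro a ha b hb'
    rw [← dist_eq_norm]
    exact dist_le_diam_of_mem hb ha hb'
  have hmaps : ∀ i, MapsTo (f i) S S := by
    intro i a ha
    rw [hSf]
    exact mem_iUnion.mpr ⟨i, a, ha, rfl⟩
  obtain ⟨i0⟩ : Nonempty (Fin m) := by
    obtain ⟨a, ha⟩ := hnt.nonempty
    rw [hSf] at ha
    obtain ⟨i, -⟩ := mem_iUnion.mp ha
    exact ⟨i⟩
  have hne : (Finset.univ : Finset (Fin m)).Nonempty := ⟨i0, Finset.mem_univ _⟩
  obtain ⟨imin, -, himin⟩ := Finset.exists_min_image Finset.univ ρ hne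
  obtain ⟨imax, -, himax⟩ := Finset.exists_max_image Finset.univ ρ hne
  set p : ℝ := ρ imin with hp
  set q : ℝ := ρ imax with hq
  have hp0 : 0 < p := (hρ imin).1
  have hq0 : 0 < q := (hρ imax).1
  have hq1 : q < 1 := (hρ imax).2
  have hpi : ∀ i, p ≤ ρ i := fun i => himin i (Finset.mem_univ _)
  have hqi : ∀ i, ρ i ≤ q := fun i => himax i (Finset.mem_univ _)
  have key : ∀ k : ℕ, ∀ x ∈ S, ∀ r : ℝ, q ^ k * D0 < r → r ≤ D0 →
      ∃ φ : E d → E d, ∃ t : ℝ, 0 < t ∧ MapsTo φ S S ∧ (∀ a b, ‖φ a - φ b‖ = t * ‖a - b‖) ∧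
        x ∈ φ '' S ∧ t * D0 < r ∧ p * r ≤ t * D0 := by
    intro k
    induction k with
    | zero => intro x _ r h1 h2; rw [pow_zero, one_mul] at h1; linarith
    | succ k ih =>
      intro x hx r h1 h2
      have hx' := hx
      rw [hSf] at hx'
      obtain ⟨i, x', hx'S, rfl⟩ := mem_iUnion.mp hx'
      have hi := (hρ i).1
      rcases le_or_gt (r / ρ i) D0 with h3 | h3
      · have h4 : q ^ k * D0 < r / ρ i := by
          rw [lt_div_iff₀ hi]
          refine lt_of_le_of_lt ?_ h1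
          rw [pow_succ]
          have : q ^ k * D0 * ρ i ≤ q ^ k * D0 * q := by
            gcongr
            exact hqi i
          linarith
        obtain ⟨φ, t, ht, hφ, hφt, ⟨z, hz, hzx⟩, h5, h6⟩ := ih x' hx'S _ h4 h3
        refine ⟨fun a => f i (φ a), ρ i * t, by positivity, fun a ha => hmaps i (hφ ha), ?_,
          ⟨z, hz, by simp only [hzx]⟩, ?_, ?_⟩
        · intro a b
          simp only []
          rw [hf, hφt]; ring
        · rw [lt_div_iff₀ hi] at h5; linarith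
        · rw [mul_div_assoc', div_le_iff₀ hi] at h6; linarith
      · rw [lt_div_iff₀ hi] at h3
        refine ⟨f i, ρ i, hi, hmaps i, hf i, ⟨x', hx'S, rfl⟩, by linarith, ?_⟩
        have := hpi i
        have h7 : p * r ≤ p * D0 := by gcongr
        have h8 : p * D0 ≤ ρ i * D0 := by gcongr
        linarith
  refine ⟨max (D0 / p) (1 / D0), lt_max_of_lt_left (by positivity), ?_⟩
  intro x hx r hr hrD
  have hrD0 : r ≤ D0 := by
    rw [hD0, diam]
    rw [← ENNReal.toReal_ofReal hr.le]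
    exact ENNReal.toReal_mono (isBounded_iff_ediam_ne_top.mp hb) hrD
  obtain ⟨k, hk⟩ := exists_pow_lt_of_lt_one (div_pos hr hD00) hq1
  rw [lt_div_iff₀ hD00] at hk
  obtain ⟨φ, t, ht, hφ, hφt, ⟨z, hz, hzx⟩, h5, h6⟩ := key k x hx r hk hrD0
  refine ⟨φ, ?_, ?_⟩
  · intro a ha
    refine ⟨hφ ha, ?_⟩
    rw [mem_ball, dist_eq_norm, ← hzx, hφt]
    have := hdiam a ha z hz
    have h7 : t * ‖a - z‖ ≤ t * D0 := by gcongr
    linarith
  · intro a ha b hb'
    have hM1 : D0 / p ≤ max (D0 / p) (1 / D0) := le_max_left _ _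
    have hM2 : 1 / D0 ≤ max (D0 / p) (1 / D0) := le_max_right _ _
    rw [hφt]
    constructor
    · calc r * ‖a - b‖ ≤ (D0 / p * t) * ‖a - b‖ := by
            gcongr
            rw [div_mul_eq_mul_div, le_div_iff₀ hp0]
            linarith
        _ = D0 / p * (t * ‖a - b‖) := by ring
        _ ≤ max (D0 / p) (1 / D0) * (t * ‖a - b‖) := by gcongr
    · calc t * ‖a - b‖ ≤ (1 / D0 * r) * ‖a - b‖ := by
            gcongr
            rw [one_div, inv_mul_eq_div, le_div_iff₀ hD00]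
            exact h5.le
        _ ≤ max (D0 / p) (1 / D0) * r * ‖a - b‖ := by gcongr

end Vale.Agent.P120
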