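import Vale.Agent.Lib.P120.Bounds

open MeasureTheory Filter Set Metric
open scoped Topology ENNReal NNReal RealInnerProductSpace

namespace Vale.Agent.P120

variable {d n : ℕ} {μ : Measure (E d)} {C c D : ℝ}

lemma lintegral_annuli_le (f : E d → ℝ≥0∞) (A : ℕ → Set (E d)) (hA : ∀ j, MeasurableSet (A j))
    (S : Set (E d)) (hS : S ⊆ ⋃ j, A j) (v m : ℕ → ℝ) (q : ℝ)
    (hv0 : ∀ j, 0 ≤ v j) (hq0 : 0 ≤ q)
    (hv : ∀ j, ∀ w ∈ A j, f w ≤ ENNReal.ofReal (v j))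
    (hm : ∀ j, μ (A j) ≤ ENNReal.ofReal (m j))
    (hq : ∀ j, v j * m j ≤ q * (1 / 2) ^ j) :
    ∫⁻ w in S, f w ∂μ ≤ ENNReal.ofReal (2 * q) := by
  calc ∫⁻ w in S, f w ∂μ ≤ ∫⁻ w in ⋃ j, A j, f w ∂μ := lintegral_mono_set hS
    _ ≤ ∑' j, ∫⁻ w in A j, f w ∂μ := lintegral_iUnion_le _ _
    _ ≤ ∑' j, ENNReal.ofReal (q * (1 / 2) ^ j) := by
        refine ENNReal.tsum_le_tsum fun j => ?_
        calc ∫⁻ w in A j, f w ∂μ ≤ ∫⁻ _ in A j, ENNReal.ofReal (v j) ∂μ :=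
              setLIntegral_mono' (hA j) (hv j)
          _ = ENNReal.ofReal (v j) * μ (A j) := by rw [setLIntegral_const]
          _ ≤ ENNReal.ofReal (v j) * ENNReal.ofReal (m j) := by gcongr; exact hm j
          _ = ENNReal.ofReal (v j * m j) := (ENNReal.ofReal_mul (hv0 j)).symm
          _ ≤ _ := ENNReal.ofReal_le_ofReal (hq j)
    _ = ENNReal.ofReal (∑' j : ℕ, q * (1 / 2) ^ j) := by
        rw [ENNReal.ofReal_tsum_of_nonneg]
        · intro j; positivity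
        · exact (summable_geometric_of_lt_one (by norm_num) (by norm_num)).mul_left q
    _ = ENNReal.ofReal (2 * q) := by
        rw [tsum_mul_left, tsum_geometric_of_lt_one (by norm_num) (by norm_num)]
        congr 1; norm_num; ring

/-- Tail estimate. -/
lemma lintegral_tail_le (h : UB n μ C) (x : E d) {s : ℝ} (hs : 0 < s) :
    ∫⁻ w in {w | s ≤ ‖x - w‖}, ENNReal.ofReal ((‖x - w‖ ^ (n + 1))⁻¹) ∂μ ≤
      ENNReal.ofReal (2 * (C * 2 ^ n / s)) := by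
  have hC := h.1
  refine lintegral_annuli_le _ (fun j => {w | 2 ^ j * s ≤ ‖x - w‖ ∧ ‖x - w‖ < 2 ^ (j + 1) * s})
    (fun j => ?_) _ ?_ (fun j => ((2 ^ j * s) ^ (n + 1))⁻¹) (fun j => C * (2 ^ (j + 1) * s) ^ n)
    _ ?_ ?_ ?_ ?_ ?_
  · have h1 : MeasurableSet {w : E d | 2 ^ j * s ≤ ‖x - w‖} :=
      measurableSet_le measurable_const (by fun_prop)
    have h2 : MeasurableSet {w : E d | ‖x - w‖ < 2 ^ (j + 1) * s} :=
      measurableSet_lt (by fun_prop) measurable_const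
    exact h1.inter h2
  · intro w hw
    simp only [mem_ofPred_eq] at hw
    have h1 : 1 ≤ ‖x - w‖ / s := by rwa [one_le_div hs]
    obtain ⟨j, hj1, hj2⟩ := exists_nat_pow_near h1 (one_lt_two)
    rw [mem_iUnion]
    refine ⟨j, ?_, ?_⟩
    · rwa [le_div_iff₀ hs] at hj1
    · rwa [div_lt_iff₀ hs] at hj2
  · intro j; positivity
  · positivity
  · intro j w hw
    apply ENNReal.ofReal_le_ofReal
    have := hw.1
    gcongr
  · intro j
    have hsub : {w | 2 ^ j * s ≤ ‖x - w‖ ∧ ‖x - w‖ < 2 ^ (j + 1) * s} ⊆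
        ball x (2 ^ (j + 1) * s) := by
      intro w hw
      rw [mem_ball, dist_comm, dist_eq_norm]
      exact hw.2
    exact (measure_mono hsub).trans (h.ball x (by positivity))
  · intro j
    apply le_of_eq
    have h2 : (0 : ℝ) < 2 ^ j := by positivity
    simp only [mul_pow, pow_succ, one_div, inv_pow]
    field_simp

/-- Near estimate. -/
lemma lintegral_near_le (h : UB n μ C) (x : E d) {ρ : ℝ} (hρ : 0 < ρ) :
    ∫⁻ w in {w | 0 < ‖x - w‖ ∧ ‖x - w‖ < ρ},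
      ENNReal.ofReal (‖x - w‖ ^ 2 * (‖x - w‖ ^ (n + 1))⁻¹) ∂μ ≤
      ENNReal.ofReal (2 * (C * 2 ^ (n + 1) * ρ)) := by
  have hC := h.1
  refine lintegral_annuli_le _
    (fun j => {w | (1 / 2) ^ (j + 1) * ρ ≤ ‖x - w‖ ∧ ‖x - w‖ ≤ (1 / 2) ^ j * ρ})
    (fun j => ?_) _ ?_ (fun j => ((1 / 2) ^ j * ρ) ^ 2 * (((1 / 2) ^ (j + 1) * ρ) ^ (n + 1))⁻¹)
    (fun j => C * ((1 / 2) ^ j * ρ) ^ n)
    _ ?_ ?_ ?_ ?_ ?_
  · have h1 : MeasurableSet {w : E d | (1 / 2) ^ (j + 1) * ρ ≤ ‖x - w‖} :=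
      measurableSet_le measurable_const (by fun_prop)
    have h2 : MeasurableSet {w : E d | ‖x - w‖ ≤ (1 / 2) ^ j * ρ} :=
      measurableSet_le (by fun_prop) measurable_const
    exact h1.inter h2
  · rintro w ⟨hw0, hw⟩
    obtain ⟨j, hj1, hj2⟩ := exists_nat_pow_near_of_lt_one (x := ‖x - w‖ / ρ) (y := 1 / 2)
      (by positivity) (by rw [div_le_one hρ]; exact hw.le) (by norm_num) (by norm_num)
    rw [mem_iUnion]
    refine ⟨j, ?_, ?_⟩
    · rw [lt_div_iff₀ hρ] at hj1; exact hj1.le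
    · rwa [div_le_iff₀ hρ] at hj2
  · intro j; positivity
  · positivity
  · intro j w hw
    apply ENNReal.ofReal_le_ofReal
    obtain ⟨hw1, hw2⟩ := hw
    gcongr
  · intro j
    have hsub : {w | (1 / 2) ^ (j + 1) * ρ ≤ ‖x - w‖ ∧ ‖x - w‖ ≤ (1 / 2) ^ j * ρ} ⊆
        closedBall x ((1 / 2) ^ j * ρ) := by
      intro w hw
      rw [mem_closedBall, dist_comm, dist_eq_norm]
      exact hw.2
    exact (measure_mono hsub).trans (h.2 x _ (by positivity))
  · intro j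
    apply le_of_eq
    have h2 : (0 : ℝ) < 2 ^ j := by positivity
    simp only [mul_pow, pow_succ, one_div, inv_pow]
    field_simp

end Vale.Agent.P120
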