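import Vale.Agent.Lib.P120.Tail

open MeasureTheory Filter Set Metric
open scoped Topology ENNReal NNReal RealInnerProductSpace

namespace Vale.Agent.P120

variable {d n : ℕ} {μ : Measure (E d)} {C c D : ℝ}

/-- Truncated transform of the indicator of `S`. -/
noncomputable def T (n : ℕ) (μ : Measure (E d)) (S : Set (E d)) (ε : ℝ) (x : E d) : E d :=
  ∫ y in S, ({y | ε < ‖x - y‖}.indicator (fun y => rieszKernel n (x - y)) y) ∂μ

lemma measurableSet_far (x : E d) (ε : ℝ) : MeasurableSet {y : E d | ε < ‖x - y‖} :=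
  measurableSet_lt measurable_const (by fun_prop)

lemma rieszTrunc_indicator (S : Set (E d)) (hS : MeasurableSet S) (ε : ℝ) (x : E d) :
    rieszTrunc n μ ε (S.indicator (fun _ => 1)) x = T n μ S ε x := by
  unfold rieszTrunc T
  have h1 : ∀ y, S.indicator (fun _ => (1 : ℝ)) y • rieszKernel n (x - y) =
      S.indicator (fun y => rieszKernel n (x - y)) y := by
    intro y
    by_cases hy : y ∈ S <;> simp [hy]
  simp_rw [h1]
  rw [setIntegral_indicator hS, setIntegral_indicator (measurableSet_far x ε), inter_comm]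

/-- joint kernel -/
noncomputable def tk (n : ℕ) (ε : ℝ) (x y : E d) : E d :=
  {y | ε < ‖x - y‖}.indicator (fun y => rieszKernel n (x - y)) y

lemma norm_tk_le {ε : ℝ} (hε : 0 < ε) (x y : E d) : ‖tk n ε x y‖ ≤ (ε ^ n)⁻¹ := by
  unfold tk
  by_cases h : ε < ‖x - y‖
  · rw [indicator_of_mem (by exact h)]
    exact norm_rieszKernel_le_of_le hε h.le
  · rw [indicator_of_notMem (by exact h)]
    simp; positivity

lemma tk_swap (ε : ℝ) (x y : E d) : tk n ε y x = - tk n ε x y := by
  unfold tk
  by_cases h : ε < ‖x - y‖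
  · have h' : ε < ‖y - x‖ := by rwa [norm_sub_rev]
    rw [indicator_of_mem (by exact h'), indicator_of_mem (by exact h),
      rieszKernel_sub_comm]
  · have h' : ¬ ε < ‖y - x‖ := by rwa [norm_sub_rev]
    rw [indicator_of_notMem (by exact h'), indicator_of_notMem (by exact h), neg_zero]

lemma measurable_tk (ε : ℝ) : Measurable (fun p : E d × E d => tk n ε p.1 p.2) := by
  have h1 : MeasurableSet {p : E d × E d | ε < ‖p.1 - p.2‖} :=
    measurableSet_lt measurable_const (by fun_prop)
  have h2 : Measurable (fun p : E d × E d => rieszKernel n (p.1 - p.2)) :=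
    measurable_rieszKernel.comp (by fun_prop)
  have : (fun p : E d × E d => tk n ε p.1 p.2) =
      {p : E d × E d | ε < ‖p.1 - p.2‖}.indicator (fun p => rieszKernel n (p.1 - p.2)) := by
    ext1 p
    unfold tk
    by_cases h : ε < ‖p.1 - p.2‖
    · rw [indicator_of_mem (by exact h), indicator_of_mem (by exact h)]
    · rw [indicator_of_notMem (by exact h), indicator_of_notMem (by exact h)]
  rw [this]
  exact h2.indicator h1

lemma T_eq (S : Set (E d)) (ε : ℝ) (x : E d) : T n μ S ε x = ∫ y in S, tk n ε x y ∂μ := rfl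

lemma measurable_tk_right (ε : ℝ) (x : E d) : Measurable (fun y : E d => tk n ε x y) := by
  have h : Measurable (fun y : E d => rieszKernel n (x - y)) :=
    measurable_rieszKernel.comp (by fun_prop)
  exact h.indicator (measurableSet_far x ε)

lemma integrableOn_tk {ε : ℝ} (hε : 0 < ε) (x : E d) {S : Set (E d)} (hS : μ S < ∞) :
    IntegrableOn (fun y => tk n ε x y) S μ := by
  refine Measure.integrableOn_of_bounded (M := (ε ^ n)⁻¹) hS.ne
    (measurable_tk_right ε x).aestronglyMeasurable ?_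
  exact Eventually.of_forall fun y => norm_tk_le hε x y

lemma stronglyMeasurable_T [SFinite μ] (S : Set (E d)) (ε : ℝ) :
    StronglyMeasurable (T n μ S ε) := by
  have h := (measurable_tk (d := d) (n := n) ε).stronglyMeasurable
  exact StronglyMeasurable.integral_prod_right' (ν := μ.restrict S) h

lemma norm_T_le {ε : ℝ} (hε : 0 < ε) (x : E d) {S : Set (E d)} (hS : μ S < ∞) :
    ‖T n μ S ε x‖ ≤ (ε ^ n)⁻¹ * μ.real S := by
  rw [T_eq]
  exact norm_setIntegral_le_of_norm_le_const hS (fun y _ => norm_tk_le hε x y)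

lemma T_union {ε : ℝ} (hε : 0 < ε) (x : E d) {S S' : Set (E d)} (hS : μ S < ∞)
    (hS' : μ S' < ∞) (hm : MeasurableSet S') (hd : Disjoint S S') :
    T n μ (S ∪ S') ε x = T n μ S ε x + T n μ S' ε x := by
  simp only [T_eq]
  exact setIntegral_union hd hm (integrableOn_tk hε x hS) (integrableOn_tk hε x hS')

/-- antisymmetry -/
lemma setIntegral_T_self [SFinite μ] {ε : ℝ} (hε : 0 < ε) {A : Set (E d)} (hA : μ A < ∞) :
    ∫ x in A, T n μ A ε x ∂μ = 0 := by
  have hfin : IsFiniteMeasure (μ.restrict A) := ⟨by simpa using hA⟩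
  have hint : Integrable (Function.uncurry (fun x y : E d => tk n ε x y))
      ((μ.restrict A).prod (μ.restrict A)) := by
    refine Integrable.of_bound (C := (ε ^ n)⁻¹) (measurable_tk ε).aestronglyMeasurable ?_
    exact Eventually.of_forall fun p => norm_tk_le hε p.1 p.2
  have h1 := integral_integral_swap hint
  have h2 : ∫ y in A, ∫ x in A, tk n ε x y ∂μ ∂μ = - ∫ x in A, ∫ y in A, tk n ε x y ∂μ ∂μ := by
    rw [← integral_neg]
    congr 1
    ext1 y
    rw [← integral_neg]
    congr 1
    ext1 x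
    exact tk_swap ε y x
  simp only [T_eq]
  rw [h2] at h1
  have h3 : (2 : ℝ) • (∫ x in A, ∫ y in A, tk n ε x y ∂μ ∂μ) = 0 := by
    rw [two_smul]
    nth_rewrite 1 [h1]
    exact neg_add_cancel _
  exact (smul_eq_zero.mp h3).resolve_left (by norm_num)

/-- The operator norm bound tested on indicators. -/
lemma eLpNorm_T_le {CR : ℝ} (hR : ∀ f : E d → ℝ, MemLp f 2 μ → ∀ ε : ℝ, 0 < ε →
    eLpNorm (rieszTrunc n μ ε f) 2 μ ≤ ENNReal.ofReal CR * eLpNorm f 2 μ)
    {S : Set (E d)} (hS : MeasurableSet S) (hμS : μ S < ∞) {ε : ℝ} (hε : 0 < ε) :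
    eLpNorm (T n μ S ε) 2 μ ≤ ENNReal.ofReal CR * (μ S) ^ (1 / 2 : ℝ) := by
  have h1 : MemLp (S.indicator (fun _ => (1 : ℝ))) 2 μ :=
    memLp_indicator_const 2 hS 1 (Or.inr hμS.ne)
  have h2 := hR _ h1 ε hε
  have h3 : rieszTrunc n μ ε (S.indicator (fun _ => (1 : ℝ))) = T n μ S ε := by
    ext1 x; exact rieszTrunc_indicator S hS ε x
  rw [h3, eLpNorm_indicator_const hS (by norm_num) (by norm_num)] at h2
  simpa using h2

end Vale.Agent.P120
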